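import Crest.Agent.N337.Pe.Thin
import Crest.Agent.N337.Gas.Abs

/-!
# Row 337, move (c): the peel theorem and the response bound

* `peel`: `Var H ≤ 11 D_G(H) + 200 E[(ν(S) + 1_S)(H - c)²]`, `D_G` = edges ending in `Gd 1`;
* `Hyp.of_cl`: the hypotheses for a mixture, read in the conditional laws `cl W O A`;
* `resp`: `D_G(E[F|A]) ≤ 2 D^hi(F) + 2κ E Var(F|A)`;
* `peel_joint`: both together on a space carrying the environment and the first colour.
-/

set_option autoImplicit false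
set_option linter.unusedSectionVars false

namespace Crest.Agent.N337.Pe

open Finset Crest.Agent.N337.Op

variable {G : Type} [Fintype G] [DecidableEq G] {ρ : Finset G → ℝ} {Gd : ℕ → Finset G → Prop}

open Classical in
/-- birth-death form restricted to the edges whose upper end is in `gd`. -/
noncomputable def DG (ν : Finset G → ℝ) (gd : Finset G → Prop) (H : Finset G → ℝ) : ℝ :=
  ex ν fun A => if gd A then ∑ g ∈ A, (H A - H (A.erase g)) ^ 2 else 0

lemma DG_le_Dir {ν : Finset G → ℝ} (hν : ∀ A, 0 ≤ ν A) (gd : Finset G → Prop) (H : Finset G → ℝ) :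
    DG ν gd H ≤ Gas.Dir ν H := ex_mono hν fun A => by
  split_ifs; exacts [le_rfl, sum_nonneg fun _ _ => sq_nonneg _]

lemma DG_mono {ν : Finset G → ℝ} (hν : ∀ A, 0 ≤ ν A) {gd gd' : Finset G → Prop}
    (h : ∀ A, gd A → gd' A) (H : Finset G → ℝ) : DG ν gd H ≤ DG ν gd' H := ex_mono hν fun A => by
  by_cases h1 : gd A
  · rw [if_pos h1, if_pos (h A h1)]
  · rw [if_neg h1]; split_ifs; exacts [sum_nonneg fun _ _ => sq_nonneg _, le_rfl]

open Classical in
lemma DG_birth (ν : Finset G → ℝ) (gd : Finset G → Prop) (H : Finset G → ℝ) : DG ν gd H =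
    ∑ A, ∑ g ∈ Aᶜ, ν (insert g A) * (if gd (insert g A) then H (insert g A) - H A else 0) ^ 2 := by
  rw [← Gas.gnz ν fun A g => (if gd (insert g A) then H (insert g A) - H A else 0) ^ 2]
  refine sum_congr rfl fun A _ => congrArg _ ?_
  rw [sum_congr rfl fun g hg => by rw [insert_erase hg]]
  by_cases h : gd A <;> simp [h]

open Classical in
lemma DG_nu (ρ : Finset G → ℝ) (gd : Finset G → Prop) (H : Finset G → ℝ) : DG (nu ρ) gd H =
    EE ρ fun A B => ∑ g ∈ B, (if gd (insert g A) then H (insert g A) - H A else 0) ^ 2 := by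
  rw [DG_birth]
  refine sum_congr rfl fun A _ => ?_
  have := cs_pt ρ A (fun g => (if gd (insert g A) then H (insert g A) - H A else 0) ^ 2) fun _ => 1
  simp only [mul_one] at this
  rw [this]
  exact sum_congr rfl fun g _ => mul_comm _ _

/-- **the peel theorem.** -/
theorem peel (hL : Lad Gd) (hH : Hyp ρ Gd) (hν : Pr (nu ρ)) (H : Finset G → ℝ) (c : ℝ) :
    var (nu ρ) H ≤ 11 * DG (nu ρ) (Gd 1) H +
      200 * ex (nu ρ) fun A => (ex (nu ρ) (bad Gd 0) + bad Gd 0 A) * (H A - c) ^ 2 := by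
  classical
  set σ := ex (nu ρ) (bad Gd 0) with hσ
  set N := nsq (nu ρ) fun A => H A - c with hN
  set b := ex (nu ρ) fun A => bad Gd 0 A * (H A - c) ^ 2 with hb
  have e0 : ex (nu ρ) (fun A => (σ + bad Gd 0 A) * (H A - c) ^ 2) = σ * N + b := by
    rw [hN, hb, nsq_eq_ex, ← ex_mul, ← ex_add]; simp only [add_mul]
  have σ0 : 0 ≤ σ := ex_nn hν.nn (bad_nn 0)
  have N0 : 0 ≤ N := nsq_nn hν.nn _
  have b0 : 0 ≤ b := ex_nn hν.nn fun A => mul_nonneg (bad_nn _ _) (sq_nonneg _)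
  have D0 : 0 ≤ DG (nu ρ) (Gd 1) H := ex_nn hν.nn fun A => by
    split_ifs; exacts [sum_nonneg fun _ _ => sq_nonneg _, le_rfl]
  rw [e0]
  rcases le_or_gt (1 / 2) σ with h | h
  · nlinarith [hν.var_le_sub H c]
  have hγ : ex (nu ρ) (fun A => 1 - bad Gd 0 A) = 1 - σ := by rw [ex_sub, hν.ex_const]
  set d := ex (nu ρ) (fun A => (1 - bad Gd 0 A) * (H A - c)) / (1 - σ) with hd
  have hd1 : d * (1 - σ) = ex (nu ρ) fun A => (1 - bad Gd 0 A) * (H A - c) :=
    div_mul_cancel₀ _ (by linarith)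
  have hd2 : d ^ 2 ≤ 2 * N := by
    have := sq_ex_le (Gd := Gd) hν.nn 0 fun A => H A - c
    rw [← hd1, hγ, ← hN] at this
    have h1 : d ^ 2 * (1 - σ) ≤ N := le_of_mul_le_mul_right (by nlinarith) (by linarith : 0 < 1 - σ)
    nlinarith [sq_nonneg d]
  set u : Finset G → ℝ := fun A => H A - (c + d) with hu
  set s := ex (nu ρ) fun A => bad Gd 0 A * u A ^ 2 with hs
  have h1 : s ≤ 2 * b + 2 * d ^ 2 * σ := by
    rw [hb, hσ, ← ex_mul, ← ex_mul, ← ex_add]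
    exact ex_mono hν.nn fun A => by
      simp only [hu]; nlinarith [mul_nonneg (bad_nn (Gd := Gd) 0 A) (sq_nonneg (H A - c + d))]
  have h2 := gap hL hH (fun A => (1 - bad Gd 0 A) * u A) (fun A hA => by simp [bad_of_not hA]) (by
    have : (fun A => (1 - bad Gd 0 A) * u A) =
        fun A => (1 - bad Gd 0 A) * (H A - c) - d * (1 - bad Gd 0 A) := by
      funext A; simp only [hu]; ring
    rw [this, ex_sub, ex_mul, hγ, hd1, sub_self])
  have h3 := En_le_add hH.nn one_pos (fun A => (1 - bad Gd 0 A) * u A) u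
  have h4 := En_le_good hH.nn (Gd 1) (hL.down 1) u
  have h5 := EE_rare hH.nn (by norm_num) (fun A B => bad_le _ _) (hH.h1 0 (by omega))
    fun A => sq_nonneg (u A)
  have e1 : nsq (nu ρ) (fun A => (1 - bad Gd 0 A) * u A - u A) = s := by
    rw [nsq_eq_ex]; congr 1; funext A
    by_cases hA : Gd 0 A
    · simp [bad_of hA]
    · simp [bad_of_not hA]
  have e2 : nsq (nu ρ) u = nsq (nu ρ) (fun A => (1 - bad Gd 0 A) * u A) + s := by
    rw [nsq_eq_ex, nsq_eq_ex, hs, ← ex_add]; congr 1; funext A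
    by_cases hA : Gd 0 A
    · simp [bad_of hA]
    · simp [bad_of_not hA]
  have e3 : DG (nu ρ) (Gd 1) H = EE ρ fun A B => ∑ g ∈ B,
      (if Gd 1 (insert g A) then u (insert g A) - u A else 0) ^ 2 := by
    rw [DG_nu]; simp only [hu, sub_sub_sub_cancel_right]
  have e4 : EE ρ (fun A B => (if Gd 1 (A ∪ B) then 0 else 1) * u A ^ 2) =
      EE ρ fun A B => bad Gd (0 + 1) (A ∪ B) * u A ^ 2 := rfl
  have h6 := hν.var_le_sub H (c + d)
  rw [← nsq_eq_ex] at h5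
  rw [← e3, e4] at h4
  rw [e1] at h3
  have h7 := mul_le_mul_of_nonneg_right hd2 σ0
  have h8 := mul_nonneg σ0 N0
  linarith

/-! ### mixtures -/

variable {Ξ : Type} [Fintype Ξ] [DecidableEq Ξ] {W : Ξ → ℝ} {O : Ξ → Finset G} {D : G → ℝ}
  {A : Finset G}

/-- mass of the environments in which `A` is available. -/
def zz (W : Ξ → ℝ) (O : Ξ → Finset G) (A : Finset G) : ℝ := sm W O A fun _ => 1

/-- law of the environment given the first colour. -/
noncomputable def cl (W : Ξ → ℝ) (O : Ξ → Finset G) (A : Finset G) (ξ : Ξ) : ℝ :=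
  (if A ⊆ O ξ then W ξ else 0) / zz W O A

lemma nu_mix (W : Ξ → ℝ) (O : Ξ → Finset G) (D : G → ℝ) (A : Finset G) :
    nu (mix W O D) A = (∏ g ∈ A, D g) * zz W O A := by
  simp only [nu, cs_mix, av_const, zz]

lemma sm_eq' (W : Ξ → ℝ) (O : Ξ → Finset G) (A : Finset G) (φ : Ξ → ℝ) :
    sm W O A φ = ∑ ξ, (if A ⊆ O ξ then W ξ else 0) * φ ξ := by simp only [sm, ite_mul, zero_mul]

lemma zz_eq (W : Ξ → ℝ) (O : Ξ → Finset G) (A : Finset G) :
    zz W O A = ∑ ξ, if A ⊆ O ξ then W ξ else 0 := by simp only [zz, sm, mul_one]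

lemma zz_nn (hW : ∀ ξ, 0 ≤ W ξ) (A : Finset G) : 0 ≤ zz W O A := by
  rw [zz_eq]; exact sum_nonneg fun ξ _ => by split_ifs; exacts [hW ξ, le_rfl]

lemma cl_nn (hW : ∀ ξ, 0 ≤ W ξ) (A : Finset G) (ξ : Ξ) : 0 ≤ cl W O A ξ :=
  div_nonneg (by split_ifs; exacts [hW ξ, le_rfl]) (zz_nn hW A)

lemma pr_cl (hW : ∀ ξ, 0 ≤ W ξ) (h : zz W O A ≠ 0) : Pr (cl W O A) where
  nn := cl_nn hW A
  one := by simp only [cl, ← sum_div, ← zz_eq]; exact div_self h

lemma sm_eq (hW : ∀ ξ, 0 ≤ W ξ) (A : Finset G) (φ : Ξ → ℝ) :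
    sm W O A φ = zz W O A * ex (cl W O A) φ := by
  rw [sm_eq']
  by_cases h : zz W O A = 0
  · rw [h, zero_mul]
    rw [zz_eq, sum_eq_zero_iff_of_nonneg fun ξ _ => by split_ifs; exacts [hW ξ, le_rfl]] at h
    exact sum_eq_zero fun ξ hξ => by rw [h ξ hξ, zero_mul]
  · simp only [ex, cl, mul_sum]
    exact sum_congr rfl fun ξ _ => by field_simp

lemma sm_pt (W : Ξ → ℝ) (O : Ξ → Finset G) (A : Finset G) (φ : G → Ξ → ℝ) :
    sm W O A (fun ξ => ∑ g ∈ O ξ \ A, φ g ξ) = ∑ g ∈ Aᶜ, sm W O (insert g A) (φ g) := by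
  simp only [sm]
  rw [sum_comm]
  refine sum_congr rfl fun ξ _ => ?_
  split_ifs with h
  · have : O ξ \ A = Aᶜ.filter (· ∈ O ξ) := by ext; simp [and_comm]
    rw [this, sum_filter, mul_sum]
    refine sum_congr rfl fun g _ => ?_
    simp only [insert_subset_iff, h, and_true]
    split_ifs <;> ring
  · exact (sum_eq_zero fun g _ => by simp [insert_subset_iff, h]).symm

lemma cs_mix_cl (hW : ∀ ξ, 0 ≤ W ξ) (A : Finset G) (ψ : Finset G → ℝ) :
    cs (mix W O D) A ψ = nu (mix W O D) A * ex (cl W O A) fun ξ => av D (O ξ \ A) ψ := by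
  rw [cs_mix, nu_mix, sm_eq hW, mul_assoc]

/-- the hypotheses of the peel theorem for a mixture: everything is read in the law of the
environment given `A`; `B` is the independent `D`-thinning of `O ξ \ A`. -/
theorem Hyp.of_cl (hW : ∀ ξ, 0 ≤ W ξ) (hD : ∀ g, 0 ≤ D g ∧ D g ≤ 1)
    (h1 : ∀ i ≤ 26, ∀ A, Gd i A → nu (mix W O D) A ≠ 0 →
      ex (cl W O A) (fun ξ => av D (O ξ \ A) fun B => bad Gd (i + 1) (A ∪ B)) ≤ 1 / 10 ^ 9)
    (h2 : ∀ A, Gd 26 A → nu (mix W O D) A ≠ 0 →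
      ex (cl W O A) (fun ξ => av D (O ξ \ A) (bad Gd 0)) ≤ 1 / 10 ^ 9)
    (tk : ∀ A (a : G → ℝ), Gd 27 A → nu (mix W O D) A ≠ 0 →
      (∀ g, a g ≠ 0 → g ∉ A ∧ Gd 27 (insert g A)) →
      var (cl W O A) (fun ξ => ∑ g ∈ O ξ \ A, a g * D g) ≤
        ex (cl W O A) fun ξ => ∑ g ∈ O ξ \ A, a g ^ 2 * (D g ^ 2 + 1 / 5 * D g)) :
    Hyp (mix W O D) Gd := by
  have hρ := mix_nn (O := O) hW hD
  have key : ∀ A (x y : ℝ), (nu (mix W O D) A ≠ 0 → x ≤ y) →
      nu (mix W O D) A * x ≤ nu (mix W O D) A * y := fun A x y h => by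
    by_cases h0 : nu (mix W O D) A = 0
    · rw [h0]; simp
    · exact mul_le_mul_of_nonneg_left (h h0) (nu_nn hρ A)
  refine ⟨hρ, fun i hi A hA => ?_, fun A hA => ?_, fun A a hA ha => ?_⟩
  · rw [cs_mix_cl hW, mul_comm (1 / 10 ^ 9)]; exact key A _ _ (h1 i hi A hA)
  · rw [cs_mix_cl hW, mul_comm (1 / 10 ^ 9)]; exact key A _ _ (h2 A hA)
  · refine ⟨ex (cl W O A) fun ξ => ∑ g ∈ O ξ \ A, a g * D g, ?_⟩
    rw [cs_mix_cl hW, cs_mix_cl hW, mul_left_comm]
    refine key A _ _ fun h0 => ?_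
    have := tk A a hA h0 ha
    simp only [av_sq, av_sum]
    rw [ex_add, ← ex_mul]
    refine (add_le_add le_rfl this).trans (le_of_eq ?_)
    rw [← ex_add]; congr 1; funext ξ
    rw [mul_sum, ← sum_add_distrib]
    exact sum_congr rfl fun g _ => by ring

/-- covariance with a function of `π`. -/
lemma sq_cov_le {Ω κ : Type} [Fintype Ω] [DecidableEq Ω] [DecidableEq κ] {μ : Ω → ℝ} (hμ : Pr μ)
    (π : Ω → κ) (Φ : Ω → ℝ) {F : Ω → ℝ} (hF : ∀ ω ω', π ω = π ω' → F ω = F ω') :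
    ex μ (fun ω => Φ ω * (F ω - ex μ F)) ^ 2 ≤ var μ (ap (ce μ π) Φ) * var μ F := by
  have h := Op.cs hμ.nn (fun ω => F ω - ex μ F)
    fun ω => ap (ce μ π) Φ ω - ex μ (ap (ce μ π) Φ)
  rw [ip_sub_right, ip_const, hμ.ex_center, mul_zero, sub_zero, ip_eq_ex,
    ex_mul_ce hμ.nn fun ω ω' e => by rw [hF ω ω' e]] at h
  simp only [mul_comm (Φ _)]
  exact h.trans_eq (mul_comm _ _)

lemma zz_ne (h : nu (mix W O D) A ≠ 0) : zz W O A ≠ 0 :=
  fun h0 => h (by rw [nu_mix, h0, mul_zero])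

lemma D_ne (h : nu (mix W O D) A ≠ 0) : ∀ g ∈ A, D g ≠ 0 :=
  prod_ne_zero_iff.1 fun h0 => h (by rw [nu_mix, h0, zero_mul])

open Classical in
/-- **response**, covariance form. -/
theorem resp0 (hW : ∀ ξ, 0 ≤ W ξ) (hD : ∀ g, 0 ≤ D g) (gd : Finset G → Prop) {K : ℝ} (hK : 0 ≤ K)
    (F : Ξ → Finset G → ℝ)
    (hc : ∀ A (a : G → ℝ), nu (mix W O D) A ≠ 0 → (∀ g, a g ≠ 0 → g ∉ A ∧ gd (insert g A)) →
      ex (cl W O A) (fun ξ => (∑ g ∈ O ξ \ A, a g * D g) *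
        (F ξ A - ex (cl W O A) fun ξ => F ξ A)) ^ 2 ≤
        K * ex (cl W O A) (fun ξ => ∑ g ∈ O ξ \ A, a g ^ 2 * D g) * var (cl W O A) fun ξ => F ξ A) :
    DG (nu (mix W O D)) gd (fun A => ex (cl W O A) fun ξ => F ξ A) ≤
      2 * ex (nu (mix W O D)) (fun A => ex (cl W O A) fun ξ =>
        if gd A then ∑ g ∈ A, (F ξ A - F ξ (A.erase g)) ^ 2 else 0) +
      2 * K * ex (nu (mix W O D)) fun A => var (cl W O A) fun ξ => F ξ A := by
  have e0 : ex (nu (mix W O D)) (fun A => ex (cl W O A) fun ξ =>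
      if gd A then ∑ g ∈ A, (F ξ A - F ξ (A.erase g)) ^ 2 else 0) =
      ∑ A, ∑ g ∈ Aᶜ, nu (mix W O D) (insert g A) * ex (cl W O (insert g A)) fun ξ =>
        if gd (insert g A) then (F ξ (insert g A) - F ξ A) ^ 2 else 0 := by
    rw [← Gas.gnz (nu (mix W O D)) fun A g => ex (cl W O (insert g A)) fun ξ =>
      if gd (insert g A) then (F ξ (insert g A) - F ξ A) ^ 2 else 0]
    refine sum_congr rfl fun A _ => congrArg _ ?_
    rw [sum_congr rfl fun g hg => by rw [insert_erase hg]]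
    simp only [ex]
    rw [sum_comm]
    refine sum_congr rfl fun ξ _ => ?_
    rw [← mul_sum]; split_ifs <;> simp
  rw [DG_birth, e0, ex, mul_sum, mul_sum, ← sum_add_distrib]
  refine sum_le_sum fun A _ => ?_
  have P0 : 0 ≤ ∏ g ∈ A, D g := prod_nonneg fun g _ => hD g
  set H := ex (cl W O A) fun ξ => F ξ A with hH
  set r : G → ℝ := fun g => if g ∉ A ∧ gd (insert g A) then
    ex (cl W O (insert g A)) (fun ξ => F ξ A) - H else 0 with hr
  set Y := ∑ g ∈ Aᶜ, zz W O (insert g A) * (r g ^ 2 * D g) with hY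
  have Y0 : 0 ≤ Y := sum_nonneg fun g _ =>
    mul_nonneg (zz_nn hW _) (mul_nonneg (sq_nonneg _) (hD g))
  have eY : Y = zz W O A * ex (cl W O A) fun ξ => ∑ g ∈ O ξ \ A, r g ^ 2 * D g := by
    rw [← sm_eq hW, sm_pt W O A fun g _ => r g ^ 2 * D g]
    refine sum_congr rfl fun g _ => ?_
    rw [sm_eq', ← sum_mul, zz_eq]
  have eY' : Y = zz W O A * ex (cl W O A) fun ξ => (∑ g ∈ O ξ \ A, r g * D g) * (F ξ A - H) := by
    simp only [sum_mul]
    rw [← sm_eq hW, sm_pt W O A fun g ξ => r g * D g * (F ξ A - H)]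
    refine sum_congr rfl fun g hg => ?_
    rw [sm_eq hW]
    by_cases h0 : zz W O (insert g A) = 0
    · rw [h0, zero_mul, zero_mul]
    · rw [ex_mul, ex_sub, (pr_cl hW h0).ex_const]
      simp only [hr]
      split_ifs <;> ring
  have hY2 : (∏ g ∈ A, D g) * Y ≤
      (∏ g ∈ A, D g) * (zz W O A * (K * var (cl W O A) fun ξ => F ξ A)) := by
    by_cases hn : nu (mix W O D) A = 0
    · rw [eY, ← mul_assoc, ← mul_assoc, ← nu_mix, hn, zero_mul, zero_mul]
    have h0 := zz_ne hn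
    have z0 := (zz_nn (O := O) hW A).lt_of_ne' h0
    have h2 := hc A r hn fun g hg => by by_contra h; exact hg (if_neg h)
    have e := mul_left_cancel₀ h0 (eY.symm.trans eY')
    have V0 := var_nn (cl_nn (O := O) hW A) fun ξ => F ξ A
    rw [← hH, ← e] at h2
    rw [eY] at Y0 ⊢
    refine mul_le_mul_of_nonneg_left (mul_le_mul_of_nonneg_left ?_ z0.le) P0
    set y := ex (cl W O A) fun ξ => ∑ g ∈ O ξ \ A, r g ^ 2 * D g
    rcases (le_of_mul_le_mul_left (by simpa using Y0 : zz W O A * 0 ≤ zz W O A * y) z0).eq_or_lt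
      with h | h
    · rw [← h]; positivity
    · refine le_of_mul_le_mul_left ?_ h
      nlinarith
  rw [nu_mix W O D A, mul_sum]
  refine le_trans ?_ (add_le_add le_rfl (by linarith : 2 * ((∏ g ∈ A, D g) * Y) ≤ _))
  rw [hY, mul_sum, mul_sum, ← sum_add_distrib]
  refine sum_le_sum fun g hg => ?_
  have hg' := mem_compl.1 hg
  rw [nu_mix, prod_insert hg']
  by_cases h0 : zz W O (insert g A) = 0
  · simp [h0]
  have n0 := mul_nonneg (mul_nonneg (hD g) P0) (zz_nn (O := O) hW (insert g A))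
  simp only [hr, hg', not_false_eq_true, true_and]
  split_ifs with h
  · have h1 := (pr_cl hW h0).sq_ex_le fun ξ => F ξ (insert g A) - F ξ A
    rw [ex_sub, nsq_eq_ex] at h1
    nlinarith [mul_le_mul_of_nonneg_left h1 n0, mul_nonneg n0 (sq_nonneg
      (ex (cl W O (insert g A)) (fun ξ => F ξ (insert g A)) -
        2 * ex (cl W O (insert g A)) (fun ξ => F ξ A) + H))]
  · simp [ex]

open Classical in
/-- **response**: `F ξ A` depends on the environment through `π` only. -/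
theorem resp {κ : Type} [DecidableEq κ] (hW : ∀ ξ, 0 ≤ W ξ) (hD : ∀ g, 0 ≤ D g) (π : Ξ → κ)
    (gd : Finset G → Prop) {K : ℝ} (hK : 0 ≤ K)
    (tkb : ∀ A (a : G → ℝ), nu (mix W O D) A ≠ 0 → (∀ g, a g ≠ 0 → g ∉ A ∧ gd (insert g A)) →
      var (cl W O A) (ap (ce (cl W O A) π) fun ξ => ∑ g ∈ O ξ \ A, a g * D g) ≤
        K * ex (cl W O A) fun ξ => ∑ g ∈ O ξ \ A, a g ^ 2 * D g)
    (F : Ξ → Finset G → ℝ) (hF : ∀ ξ ξ' A, π ξ = π ξ' → F ξ A = F ξ' A) :
    DG (nu (mix W O D)) gd (fun A => ex (cl W O A) fun ξ => F ξ A) ≤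
      2 * ex (nu (mix W O D)) (fun A => ex (cl W O A) fun ξ =>
        if gd A then ∑ g ∈ A, (F ξ A - F ξ (A.erase g)) ^ 2 else 0) +
      2 * K * ex (nu (mix W O D)) fun A => var (cl W O A) fun ξ => F ξ A :=
  resp0 hW hD gd hK F fun A a hA ha =>
    (sq_cov_le (pr_cl hW (zz_ne hA)) π _ fun ξ ξ' e => hF ξ ξ' A e).trans
      (mul_le_mul_of_nonneg_right (tkb A a hA ha) (var_nn (cl_nn hW A) _))

/-- joint expectation over the first colour and the environment. -/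
noncomputable def jx (W : Ξ → ℝ) (O : Ξ → Finset G) (D : G → ℝ) (φ : Ξ → Finset G → ℝ) : ℝ :=
  ex (nu (mix W O D)) fun A => ex (cl W O A) fun ξ => φ ξ A

lemma jx_eq (hW : ∀ ξ, 0 ≤ W ξ) (φ : Ξ → Finset G → ℝ) :
    jx W O D φ = ∑ ξ, W ξ * ∑ A ∈ (O ξ).powerset, (∏ g ∈ A, D g) * φ ξ A := by
  rw [jx, ex]
  simp only [nu_mix, mul_assoc, ← sm_eq hW]
  simp only [sm, mul_sum]
  rw [sum_comm]
  refine sum_congr rfl fun ξ _ => ?_
  simp only [mul_ite, mul_zero, ← sum_filter]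
  exact sum_congr (by ext; simp) fun _ _ => by ring

lemma pr_mix (hW : ∀ ξ, 0 ≤ W ξ) (hD : ∀ g, 0 ≤ D g ∧ D g ≤ 1)
    (h : ∑ ξ, W ξ * ∑ A ∈ (O ξ).powerset, ∏ g ∈ A, D g = 1) : Pr (nu (mix W O D)) where
  nn := nu_nn (mix_nn hW hD)
  one := by
    have := jx_eq (O := O) (D := D) hW fun _ _ => 1
    simp only [mul_one] at this
    rw [← h, ← this, jx, ex_congr (g := fun _ => 1) fun A hA => (pr_cl hW (zz_ne hA)).ex_const 1]
    simp only [ex, mul_one]

open Classical in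
/-- **peel with response**: local Poincaré inequality one level up. -/
theorem peel_joint {κ : Type} [DecidableEq κ] (hW : ∀ ξ, 0 ≤ W ξ) (hD : ∀ g, 0 ≤ D g)
    (hL : Lad Gd) (hH : Hyp (mix W O D) Gd) (hν : Pr (nu (mix W O D))) (π : Ξ → κ) {K : ℝ}
    (hK : 0 ≤ K)
    (tkb : ∀ A (a : G → ℝ), nu (mix W O D) A ≠ 0 → (∀ g, a g ≠ 0 → g ∉ A ∧ Gd 1 (insert g A)) →
      var (cl W O A) (ap (ce (cl W O A) π) fun ξ => ∑ g ∈ O ξ \ A, a g * D g) ≤
        K * ex (cl W O A) fun ξ => ∑ g ∈ O ξ \ A, a g ^ 2 * D g)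
    (F : Ξ → Finset G → ℝ) (hF : ∀ ξ ξ' A, π ξ = π ξ' → F ξ A = F ξ' A) (c : ℝ) :
    jx W O D (fun ξ A => (F ξ A - jx W O D F) ^ 2) ≤
      (1 + 22 * K) * ex (nu (mix W O D)) (fun A => var (cl W O A) fun ξ => F ξ A) +
      22 * jx W O D (fun ξ A => if Gd 1 A then ∑ g ∈ A, (F ξ A - F ξ (A.erase g)) ^ 2 else 0) +
      200 * jx W O D fun ξ A => (ex (nu (mix W O D)) (bad Gd 0) + bad Gd 0 A) * (F ξ A - c) ^ 2 := by
  have h1 := peel hL hH hν (fun A => ex (cl W O A) fun ξ => F ξ A) c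
  have h2 := resp hW hD π (Gd 1) hK tkb F hF
  have h3 : jx W O D (fun ξ A => (F ξ A - jx W O D F) ^ 2) =
      ex (nu (mix W O D)) (fun A => var (cl W O A) fun ξ => F ξ A) +
        var (nu (mix W O D)) fun A => ex (cl W O A) fun ξ => F ξ A := by
    rw [var, nsq_eq_ex, ← ex_add]
    refine ex_congr fun A hA => ?_
    have hp := pr_cl hW (zz_ne hA)
    rw [← nsq_eq_ex, hp.nsq_sub_const, hp.var_eq, jx]; ring
  have h4 : ex (nu (mix W O D)) (fun A => (ex (nu (mix W O D)) (bad Gd 0) + bad Gd 0 A) *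
      (ex (cl W O A) (fun ξ => F ξ A) - c) ^ 2) ≤
      jx W O D fun ξ A => (ex (nu (mix W O D)) (bad Gd 0) + bad Gd 0 A) * (F ξ A - c) ^ 2 :=
    ex_mono_ae hν.nn fun A hA => by
      have hp := pr_cl hW (zz_ne hA)
      have := hp.sq_ex_le fun ξ => F ξ A - c
      rw [ex_sub, hp.ex_const] at this
      rw [ex_mul]
      exact mul_le_mul_of_nonneg_left this (add_nonneg (ex_nn hν.nn (bad_nn 0)) (bad_nn _ _))
  rw [h3]
  simp only [jx] at h4 ⊢
  linarith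

end Crest.Agent.N337.Pe
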