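import Crest.Agent.N337.Op.CE

/-!
# Row 337, move (c): thinnings and fair subsets

`av D S ψ`: mean of `ψ B` for an independent thinning `B` of `S`;
`bar F R`, `vr F R`: mean and (unnormalised) variance of `F` over the subsets of `R`.
-/

set_option autoImplicit false
set_option linter.unusedSectionVars false

namespace Crest.Agent.N337.Pe

open Finset

/-- Jensen with an unnormalised weight. -/
lemma jen {ι : Type} (s : Finset ι) (w p : ι → ℝ) (hw : ∀ i ∈ s, 0 ≤ w i) {ψ : ℝ → ℝ}
    (hψ : ConvexOn ℝ Set.univ ψ) :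
    (∑ i ∈ s, w i) * ψ ((∑ i ∈ s, w i * p i) / ∑ i ∈ s, w i) ≤ ∑ i ∈ s, w i * ψ (p i) := by
  rcases (sum_nonneg hw).eq_or_lt with h | h
  · rw [← h, zero_mul]
    exact (sum_eq_zero fun i hi => by
      rw [(sum_eq_zero_iff_of_nonneg hw).1 h.symm i hi, zero_mul]).ge
  · have := hψ.map_centerMass_le (t := s) (w := w) (p := p) hw h fun _ _ => Set.mem_univ _
    simp only [centerMass, smul_eq_mul, Function.comp] at this
    rw [div_eq_inv_mul]
    calc _ ≤ (∑ i ∈ s, w i) * ((∑ i ∈ s, w i)⁻¹ * ∑ i ∈ s, w i * ψ (p i)) :=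
          mul_le_mul_of_nonneg_left this h.le
      _ = _ := by rw [← mul_assoc, mul_inv_cancel₀ h.ne', one_mul]

lemma cvx_sq : ConvexOn ℝ Set.univ fun x : ℝ => x ^ 2 := Even.convexOn_pow (by decide)

lemma cvx_abs : ConvexOn ℝ Set.univ fun x : ℝ => |x| := convexOn_univ_norm

variable {G : Type} [DecidableEq G]

/-- weight of `B` in an independent thinning of `S`. -/
def wt (D : G → ℝ) (S B : Finset G) : ℝ := ∏ g ∈ S, if g ∈ B then D g else 1 - D g

/-- mean over an independent thinning of `S`. -/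
def av (D : G → ℝ) (S : Finset G) (ψ : Finset G → ℝ) : ℝ := ∑ B ∈ S.powerset, wt D S B * ψ B

variable {D : G → ℝ} {S : Finset G} {ψ ψ' : Finset G → ℝ} {g : G}

lemma wt_nn (hD : ∀ g ∈ S, 0 ≤ D g ∧ D g ≤ 1) (B : Finset G) : 0 ≤ wt D S B :=
  prod_nonneg fun g hg => by split_ifs; exacts [(hD g hg).1, sub_nonneg.2 (hD g hg).2]

lemma av_congr (h : ∀ B ⊆ S, ψ B = ψ' B) : av D S ψ = av D S ψ' :=
  sum_congr rfl fun B hB => by rw [h B (mem_powerset.1 hB)]

lemma av_mono (hD : ∀ g ∈ S, 0 ≤ D g ∧ D g ≤ 1) (h : ∀ B ⊆ S, ψ B ≤ ψ' B) :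
    av D S ψ ≤ av D S ψ' :=
  sum_le_sum fun B hB => mul_le_mul_of_nonneg_left (h B (mem_powerset.1 hB)) (wt_nn hD B)

lemma av_empty (ψ : Finset G → ℝ) : av D ∅ ψ = ψ ∅ := by simp [av, wt]

lemma av_insert (hg : g ∉ S) (ψ : Finset G → ℝ) : av D (insert g S) ψ =
    D g * av D S (fun B => ψ (insert g B)) + (1 - D g) * av D S ψ := by
  simp only [av, sum_powerset_insert hg, mul_sum]
  rw [add_comm]
  congr 1 <;> refine sum_congr rfl fun B hB => ?_
  · have : wt D S (insert g B) = wt D S B := prod_congr rfl fun x hx => by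
      have : x ≠ g := fun e => hg (e ▸ hx)
      simp [this]
    rw [wt, prod_insert hg, if_pos (mem_insert_self _ _), ← wt, this, mul_assoc]
  · rw [wt, prod_insert hg, if_neg fun h => hg (mem_powerset.1 hB h), ← wt, mul_assoc]

lemma av_const (D : G → ℝ) (S : Finset G) (c : ℝ) : av D S (fun _ => c) = c := by
  induction S using Finset.induction_on with
  | empty => exact av_empty _
  | insert g S hg ih => rw [av_insert hg, ih]; ring

lemma av_sq (D : G → ℝ) (S : Finset G) (a : G → ℝ) (m : ℝ) :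
    av D S (fun B => (∑ g ∈ B, a g - m) ^ 2) =
      ∑ g ∈ S, a g ^ 2 * (D g * (1 - D g)) + (∑ g ∈ S, a g * D g - m) ^ 2 := by
  induction S using Finset.induction_on generalizing m with
  | empty => simp [av_empty]
  | insert g S hg ih =>
    rw [av_insert hg, ih, av_congr (ψ' := fun B => (∑ x ∈ B, a x - (m - a g)) ^ 2) fun B hB => by
      rw [sum_insert fun h => hg (hB h)]; ring, ih, sum_insert hg, sum_insert hg]
    ring

lemma av_sum (D : G → ℝ) (S : Finset G) (a : G → ℝ) :
    av D S (fun B => ∑ g ∈ B, a g) = ∑ g ∈ S, a g * D g := by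
  have key : ∀ m, av D S (fun B => m + ∑ g ∈ B, a g) = m + ∑ g ∈ S, a g * D g := by
    induction S using Finset.induction_on with
    | empty => simp [av_empty]
    | insert g S hg ih =>
      intro m
      rw [av_insert hg, ih, av_congr (ψ' := fun B => (m + a g) + ∑ x ∈ B, a x) fun B hB => by
        rw [sum_insert fun h => hg (hB h)]; ring, ih, sum_insert hg]
      ring
  simpa using key 0

lemma av_sup (D : G → ℝ) {A S : Finset G} (h : A ⊆ S) (ψ : Finset G → ℝ) :
    av D S (fun R => if A ⊆ R then ψ (R \ A) else 0) = (∏ g ∈ A, D g) * av D (S \ A) ψ := by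
  induction A using Finset.induction_on generalizing S with
  | empty => simp
  | insert g A hg ih =>
    obtain ⟨S, hS, rfl⟩ : ∃ S', g ∉ S' ∧ S = insert g S' :=
      ⟨S.erase g, notMem_erase _ _, (insert_erase (h (mem_insert_self _ _))).symm⟩
    have hA : A ⊆ S := (insert_subset_insert_iff hg).1 h
    have e : ∀ R, g ∉ R → insert g R \ insert g A = R \ A := fun R hR => by
      rw [insert_sdiff_insert, sdiff_insert_of_notMem hR]
    rw [av_insert hS, av_congr (ψ' := fun R => if A ⊆ R then ψ (R \ A) else 0) fun R hR => by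
      rw [e R fun h => hS (hR h)]; simp only [insert_subset_insert_iff hg], ih hA,
      av_congr (ψ' := fun _ => 0) fun R hR => if_neg fun h => hS (hR (h (mem_insert_self _ _))),
      av_const, e S hS, prod_insert hg]
    ring

/-- mean over the subsets of `R`. -/
noncomputable def bar (F : Finset G → ℝ) (R : Finset G) : ℝ :=
  (∑ A ∈ R.powerset, F A) / 2 ^ R.card

/-- sum of the squared deviations over the subsets of `R`. -/
noncomputable def vr (F : Finset G → ℝ) (R : Finset G) : ℝ := ∑ A ∈ R.powerset, (F A - bar F R) ^ 2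

lemma mul_bar (F : Finset G → ℝ) (R : Finset G) :
    2 ^ R.card * bar F R = ∑ A ∈ R.powerset, F A := mul_div_cancel₀ _ (by positivity)

lemma sum_pw_const (R : Finset G) (c : ℝ) : ∑ _A ∈ R.powerset, c = 2 ^ R.card * c := by simp

lemma bar_jen (F : Finset G → ℝ) (R : Finset G) {ψ : ℝ → ℝ} (hψ : ConvexOn ℝ Set.univ ψ) :
    2 ^ R.card * ψ (bar F R) ≤ ∑ A ∈ R.powerset, ψ (F A) := by
  simpa [bar] using jen R.powerset (fun _ => 1) F (fun _ _ => zero_le_one) hψ

lemma bar_sub (F H : Finset G → ℝ) (R : Finset G) :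
    bar (fun A => F A - H A) R = bar F R - bar H R := by
  simp only [bar, sum_sub_distrib, sub_div]

lemma sum_sq_sub (F : Finset G → ℝ) (R : Finset G) (m : ℝ) :
    ∑ A ∈ R.powerset, (F A - m) ^ 2 = vr F R + 2 ^ R.card * (bar F R - m) ^ 2 := by
  have : ∀ A, (F A - m) ^ 2 = (F A - bar F R) ^ 2 + 2 * (bar F R - m) * F A +
      (m ^ 2 - bar F R ^ 2) := fun A => by ring
  simp only [this, sum_add_distrib, ← mul_sum, sum_pw_const, ← mul_bar F R, vr]
  ring

lemma vr_le (F : Finset G → ℝ) (R : Finset G) (m : ℝ) :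
    vr F R ≤ ∑ A ∈ R.powerset, (F A - m) ^ 2 := by
  rw [sum_sq_sub]; exact le_add_of_nonneg_right (by positivity)

lemma vr_nn (F : Finset G → ℝ) (R : Finset G) : 0 ≤ vr F R := sum_nonneg fun _ _ => sq_nonneg _

/-- Efron–Stein for fair coins. -/
theorem vr_es (F : Finset G → ℝ) (R : Finset G) :
    vr F R ≤ 1 / 2 * ∑ A ∈ R.powerset, ∑ g ∈ R \ A, (F (insert g A) - F A) ^ 2 := by
  induction R using Finset.induction_on generalizing F with
  | empty => simp [vr, bar]
  | insert x R hx ih =>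
    set H : Finset G → ℝ := fun A => F (insert x A) with hH
    have h1 := vr_le F (insert x R) ((bar F R + bar H R) / 2)
    rw [sum_powerset_insert hx, sum_sq_sub, sum_sq_sub H] at h1
    have h2 := bar_jen (fun A => H A - F A) R cvx_sq
    rw [bar_sub] at h2
    have e1 : ∑ A ∈ R.powerset, ∑ g ∈ insert x R \ A, (F (insert g A) - F A) ^ 2 =
        ∑ A ∈ R.powerset, (H A - F A) ^ 2 +
          ∑ A ∈ R.powerset, ∑ g ∈ R \ A, (F (insert g A) - F A) ^ 2 := by
      rw [← sum_add_distrib]
      refine sum_congr rfl fun A hA => ?_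
      rw [insert_sdiff_of_notMem _ fun h => hx (mem_powerset.1 hA h),
        sum_insert fun h => hx (mem_sdiff.1 h).1]
    have e2 : ∑ A ∈ R.powerset, ∑ g ∈ insert x R \ insert x A,
        (F (insert g (insert x A)) - F (insert x A)) ^ 2 =
          ∑ A ∈ R.powerset, ∑ g ∈ R \ A, (H (insert g A) - H A) ^ 2 := by
      refine sum_congr rfl fun A _ => ?_
      rw [insert_sdiff_insert, sdiff_insert_of_notMem hx]
      simp only [hH, insert_comm x]
    rw [sum_powerset_insert hx, e1, e2]
    have := ih F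
    have := ih H
    nlinarith

/-- the complement inside `R` preserves the uniform law. -/
lemma sum_pw_swap (R : Finset G) (φ : Finset G → Finset G → ℝ) :
    ∑ A ∈ R.powerset, φ A (R \ A) = ∑ A ∈ R.powerset, φ (R \ A) A := by
  refine sum_nbij' (fun A => R \ A) (fun A => R \ A) ?_ ?_ ?_ ?_ ?_
  · exact fun A _ => mem_powerset.2 sdiff_subset
  · exact fun A _ => mem_powerset.2 sdiff_subset
  · exact fun A hA => Finset.sdiff_sdiff_eq_self (mem_powerset.1 hA)
  · exact fun A hA => Finset.sdiff_sdiff_eq_self (mem_powerset.1 hA)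
  · exact fun A hA => by rw [Finset.sdiff_sdiff_eq_self (mem_powerset.1 hA)]

end Crest.Agent.N337.Pe
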