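import Crest.Agent.N337.Pe.Av

/-!
# Row 337, move (c): the two-colour system of a weight `ρ`

The pair `(A, B)` of disjoint sets has weight `ρ (A ∪ B)`.  `cs ρ A ψ` is the sum of `ψ B` given
`A`, `nu ρ` the weight of `A`, `tt ρ` the chain `A → A ∪ B →` fair subset, `En ρ` its energy.
-/

set_option autoImplicit false
set_option linter.unusedSectionVars false

namespace Crest.Agent.N337.Pe

open Finset Crest.Agent.N337.Op

variable {G : Type} [Fintype G] [DecidableEq G]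

/-- sum over the second colour given the first. -/
def cs (ρ : Finset G → ℝ) (A : Finset G) (ψ : Finset G → ℝ) : ℝ :=
  ∑ R, if A ⊆ R then ρ R * ψ (R \ A) else 0

/-- weight of the first colour. -/
def nu (ρ : Finset G → ℝ) (A : Finset G) : ℝ := cs ρ A fun _ => 1

/-- sum over the pairs. -/
def EE (ρ : Finset G → ℝ) (φ : Finset G → Finset G → ℝ) : ℝ := ∑ A, cs ρ A (φ A)

/-- one step of the chain. -/
noncomputable def tt (ρ F : Finset G → ℝ) (A : Finset G) : ℝ :=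
  cs ρ A (fun B => bar F (A ∪ B)) / nu ρ A

/-- energy of the chain. -/
noncomputable def En (ρ F : Finset G → ℝ) : ℝ := ∑ R, ρ R * vr F R

variable {ρ F H : Finset G → ℝ} {A : Finset G} {ψ ψ' : Finset G → ℝ}
  {φ φ' : Finset G → Finset G → ℝ}

lemma cs_mono (hρ : ∀ R, 0 ≤ ρ R) (h : ∀ B, Disjoint A B → ψ B ≤ ψ' B) : cs ρ A ψ ≤ cs ρ A ψ' :=
  sum_le_sum fun R _ => by
    split_ifs; exacts [mul_le_mul_of_nonneg_left (h _ disjoint_sdiff) (hρ R), le_rfl]

lemma cs_congr (h : ∀ B, Disjoint A B → ψ B = ψ' B) : cs ρ A ψ = cs ρ A ψ' :=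
  sum_congr rfl fun R _ => by rw [h _ disjoint_sdiff]

lemma cs_add (ρ : Finset G → ℝ) (A : Finset G) (ψ ψ' : Finset G → ℝ) :
    cs ρ A (fun B => ψ B + ψ' B) = cs ρ A ψ + cs ρ A ψ' := by
  simp only [cs, ← sum_add_distrib]
  exact sum_congr rfl fun R _ => by split_ifs <;> ring

lemma cs_mul (ρ : Finset G → ℝ) (A : Finset G) (c : ℝ) (ψ : Finset G → ℝ) :
    cs ρ A (fun B => c * ψ B) = c * cs ρ A ψ := by
  simp only [cs, mul_sum]
  exact sum_congr rfl fun R _ => by split_ifs <;> ring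

lemma cs_const (ρ : Finset G → ℝ) (A : Finset G) (c : ℝ) : cs ρ A (fun _ => c) = nu ρ A * c := by
  rw [nu, mul_comm, ← cs_mul]; simp only [mul_one]

lemma cs_nn (hρ : ∀ R, 0 ≤ ρ R) (h : ∀ B, 0 ≤ ψ B) : 0 ≤ cs ρ A ψ := by
  have := cs_mono (A := A) (ψ := fun _ => 0) hρ fun B _ => h B
  rwa [cs_const, mul_zero] at this

lemma nu_nn (hρ : ∀ R, 0 ≤ ρ R) (A : Finset G) : 0 ≤ nu ρ A := cs_nn hρ fun _ => zero_le_one

lemma cs_union (ρ : Finset G → ℝ) (A : Finset G) (ψ : Finset G → ℝ) :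
    cs ρ A (fun B => ψ (A ∪ B)) = ∑ R, (if A ⊆ R then ρ R else 0) * ψ R :=
  sum_congr rfl fun R _ => by
    split_ifs with h
    · simp only [union_sdiff_of_subset h]
    · rw [zero_mul]

lemma nu_eq (ρ : Finset G → ℝ) (A : Finset G) : nu ρ A = ∑ R, if A ⊆ R then ρ R else 0 := by
  simp only [nu, cs, mul_one]

/-- moving a point from the second colour to the first. -/
lemma cs_pt (ρ : Finset G → ℝ) (A : Finset G) (c : G → ℝ) (ψ : Finset G → ℝ) :
    cs ρ A (fun B => (∑ g ∈ B, c g) * ψ (A ∪ B)) =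
      ∑ g ∈ Aᶜ, c g * cs ρ (insert g A) fun B => ψ (insert g A ∪ B) := by
  simp only [cs_union, mul_sum]
  rw [sum_comm]
  refine sum_congr rfl fun R _ => ?_
  split_ifs with h
  · have : R \ A = Aᶜ.filter (· ∈ R) := by ext; simp [and_comm]
    beta_reduce
    rw [union_sdiff_of_subset h, this, sum_filter, sum_mul, mul_sum]
    refine sum_congr rfl fun g _ => ?_
    simp only [insert_subset_iff, h, and_true]
    split_ifs <;> ring
  · exact (sum_eq_zero fun g _ => by simp [insert_subset_iff, h]).symm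

lemma EE_eq (ρ : Finset G → ℝ) (φ : Finset G → Finset G → ℝ) :
    EE ρ φ = ∑ R, ρ R * ∑ A ∈ R.powerset, φ A (R \ A) := by
  simp only [EE, cs]
  rw [sum_comm]
  refine sum_congr rfl fun R _ => ?_
  rw [← sum_filter, mul_sum]
  exact sum_congr (by ext; simp) fun _ _ => rfl

lemma EE_swap (ρ : Finset G → ℝ) (φ : Finset G → Finset G → ℝ) :
    EE ρ φ = EE ρ fun A B => φ B A := by
  simp only [EE_eq, fun R => sum_pw_swap R φ]

lemma EE_mono (hρ : ∀ R, 0 ≤ ρ R) (h : ∀ A B, Disjoint A B → φ A B ≤ φ' A B) :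
    EE ρ φ ≤ EE ρ φ' := sum_le_sum fun A _ => cs_mono hρ (h A)

lemma EE_add (ρ : Finset G → ℝ) (φ φ' : Finset G → Finset G → ℝ) :
    EE ρ (fun A B => φ A B + φ' A B) = EE ρ φ + EE ρ φ' := by
  simp only [EE, cs_add, sum_add_distrib]

lemma EE_mul (ρ : Finset G → ℝ) (c : ℝ) (φ : Finset G → Finset G → ℝ) :
    EE ρ (fun A B => c * φ A B) = c * EE ρ φ := by
  simp only [EE, cs_mul, mul_sum]

lemma EE_fst (ρ F : Finset G → ℝ) : EE ρ (fun A _ => F A) = ex (nu ρ) F := by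
  simp only [EE, cs_const, ex]

lemma EE_un (ρ : Finset G → ℝ) (φ : Finset G → Finset G → ℝ) :
    EE ρ (fun A B => φ A (A ∪ B)) = ∑ R, ρ R * ∑ A ∈ R.powerset, φ A R := by
  rw [EE_eq]
  exact sum_congr rfl fun R _ => congrArg _ (sum_congr rfl fun A hA => by
    rw [union_sdiff_of_subset (mem_powerset.1 hA)])

lemma En_eq_EE (ρ F : Finset G → ℝ) : En ρ F = EE ρ fun A B => (F A - bar F (A ∪ B)) ^ 2 :=
  (EE_un ρ fun A R => (F A - bar F R) ^ 2).symm

lemma nu_tt (hρ : ∀ R, 0 ≤ ρ R) (F : Finset G → ℝ) (A : Finset G) :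
    nu ρ A * tt ρ F A = cs ρ A fun B => bar F (A ∪ B) := by
  by_cases h : nu ρ A = 0
  · rw [h, zero_mul, cs_union]
    rw [nu_eq, sum_eq_zero_iff_of_nonneg fun R _ => by split_ifs; exacts [hρ R, le_rfl]] at h
    exact (sum_eq_zero fun R hR => by rw [h R hR, zero_mul]).symm
  · exact mul_div_cancel₀ _ h

lemma cs_jen (hρ : ∀ R, 0 ≤ ρ R) {f : ℝ → ℝ} (hf : ConvexOn ℝ Set.univ f) (F : Finset G → ℝ)
    (A : Finset G) : nu ρ A * f (tt ρ F A) ≤ cs ρ A fun B => f (bar F (A ∪ B)) := by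
  rw [tt, cs_union ρ A (bar F), cs_union ρ A fun R => f (bar F R), nu_eq]
  exact jen univ _ _ (fun R _ => by split_ifs; exacts [hρ R, le_rfl]) hf

/-- one step moves a monotone weight from the first colour to the union. -/
lemma tt_step (hρ : ∀ R, 0 ≤ ρ R) {f : ℝ → ℝ} (hf : ConvexOn ℝ Set.univ f) (hf0 : ∀ x, 0 ≤ f x)
    {χ : Finset G → ℝ} (h0 : ∀ A, 0 ≤ χ A) (hχ : ∀ A R, A ⊆ R → χ A ≤ χ R) (F : Finset G → ℝ) :
    ex (nu ρ) (fun A => χ A * f (tt ρ F A)) ≤ EE ρ fun A B => χ (A ∪ B) * f (F A) := by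
  calc _ ≤ EE ρ fun A B => χ (A ∪ B) * f (bar F (A ∪ B)) := sum_le_sum fun A _ => by
        rw [mul_left_comm]
        refine (mul_le_mul_of_nonneg_left (cs_jen hρ hf F A) (h0 A)).trans ?_
        rw [← cs_mul]
        exact cs_mono hρ fun B _ => mul_le_mul_of_nonneg_right (hχ _ _ subset_union_left) (hf0 _)
    _ ≤ _ := by
        rw [EE_un ρ fun _ R => χ R * f (bar F R), EE_un ρ fun A R => χ R * f (F A)]
        refine sum_le_sum fun R _ => mul_le_mul_of_nonneg_left ?_ (hρ R)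
        rw [sum_pw_const, ← mul_sum, mul_left_comm]
        exact mul_le_mul_of_nonneg_left (bar_jen F R hf) (h0 R)

lemma tt_ctr (hρ : ∀ R, 0 ≤ ρ R) {f : ℝ → ℝ} (hf : ConvexOn ℝ Set.univ f) (hf0 : ∀ x, 0 ≤ f x)
    (F : Finset G → ℝ) : ex (nu ρ) (fun A => f (tt ρ F A)) ≤ ex (nu ρ) fun A => f (F A) := by
  have := tt_step hρ hf hf0 (χ := fun _ => 1) (fun _ => zero_le_one) (fun _ _ _ => le_rfl) F
  simp only [one_mul] at this
  rwa [EE_fst] at this

lemma ip_tt (hρ : ∀ R, 0 ≤ ρ R) (F H : Finset G → ℝ) :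
    ip (nu ρ) F (tt ρ H) = ∑ R, ρ R * (2 ^ R.card * (bar F R * bar H R)) := by
  have : ip (nu ρ) F (tt ρ H) = EE ρ fun A B => F A * bar H (A ∪ B) :=
    sum_congr rfl fun A _ => by rw [cs_mul, ← nu_tt hρ]; ring
  rw [this, EE_un ρ fun A R => F A * bar H R]
  simp only [← sum_mul, ← mul_bar, mul_assoc]

lemma ip_tt_symm (hρ : ∀ R, 0 ≤ ρ R) (F H : Finset G → ℝ) :
    ip (nu ρ) F (tt ρ H) = ip (nu ρ) (tt ρ F) H := by
  rw [ip_comm _ (tt ρ F), ip_tt hρ, ip_tt hρ]; simp only [mul_comm (bar F _)]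

lemma ex_tt (hρ : ∀ R, 0 ≤ ρ R) (F : Finset G → ℝ) : ex (nu ρ) (tt ρ F) = ex (nu ρ) F := by
  have : ex (nu ρ) (tt ρ F) = EE ρ fun A B => bar F (A ∪ B) := sum_congr rfl fun A _ => nu_tt hρ F A
  rw [this, EE_un ρ fun _ R => bar F R, ← EE_fst, EE_eq]
  simp only [sum_pw_const, mul_bar]

lemma nsq_nu (ρ F : Finset G → ℝ) : nsq (nu ρ) F = ∑ R, ρ R * ∑ A ∈ R.powerset, F A ^ 2 := by
  rw [nsq_eq_ex, ← EE_fst, EE_eq]

lemma En_eq (hρ : ∀ R, 0 ≤ ρ R) (F : Finset G → ℝ) :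
    En ρ F = nsq (nu ρ) F - ip (nu ρ) F (tt ρ F) := by
  rw [ip_tt hρ, nsq_nu, En, ← sum_sub_distrib]
  refine sum_congr rfl fun R _ => ?_
  have := sum_sq_sub F R 0
  simp only [sub_zero] at this
  rw [this]; ring

lemma En_nn (hρ : ∀ R, 0 ≤ ρ R) (F : Finset G → ℝ) : 0 ≤ En ρ F :=
  sum_nonneg fun R _ => mul_nonneg (hρ R) (vr_nn F R)

lemma En_le (hρ : ∀ R, 0 ≤ ρ R) (F : Finset G → ℝ) : En ρ F ≤ nsq (nu ρ) F := by
  rw [nsq_nu]
  exact sum_le_sum fun R _ => mul_le_mul_of_nonneg_left (by simpa using vr_le F R 0) (hρ R)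

lemma En_le_add (hρ : ∀ R, 0 ≤ ρ R) {x : ℝ} (hx : 0 < x) (F H : Finset G → ℝ) :
    En ρ F ≤ (1 + x) * En ρ H + (1 + 1 / x) * nsq (nu ρ) fun A => F A - H A := by
  rw [nsq_nu, En, En, mul_sum, mul_sum, ← sum_add_distrib]
  refine sum_le_sum fun R _ => ?_
  rw [mul_left_comm, mul_left_comm (1 + 1 / x), ← mul_add]
  refine mul_le_mul_of_nonneg_left ((vr_le F R (bar H R)).trans ?_) (hρ R)
  rw [vr, mul_sum, mul_sum, ← sum_add_distrib]
  refine sum_le_sum fun A _ => ?_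
  have : (1 + x) * (H A - bar H R) ^ 2 + (1 + 1 / x) * (F A - H A) ^ 2 - (F A - bar H R) ^ 2 =
      (x * (H A - bar H R) - (F A - H A)) ^ 2 / x := by field_simp; ring
  have := div_nonneg (sq_nonneg (x * (H A - bar H R) - (F A - H A))) hx.le
  linarith

/-- the two colours carry almost the same value. -/
lemma EE_sub_le (hρ : ∀ R, 0 ≤ ρ R) (F : Finset G → ℝ) :
    EE ρ (fun A B => (F A - F B) ^ 2) ≤ 4 * En ρ F := by
  have h := En_eq_EE ρ F
  have h' := EE_swap ρ fun A B => (F A - bar F (A ∪ B)) ^ 2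
  calc _ ≤ EE ρ fun A B => 2 * (F A - bar F (A ∪ B)) ^ 2 + 2 * (F B - bar F (B ∪ A)) ^ 2 :=
        EE_mono hρ fun A B _ => by
          rw [union_comm B A]; nlinarith [sq_nonneg (F A + F B - 2 * bar F (A ∪ B))]
    _ = _ := by rw [EE_add, EE_mul, EE_mul, ← h', ← h]; ring

/-- Efron–Stein on the good unions. -/
lemma En_le_good (hρ : ∀ R, 0 ≤ ρ R) (gd : Finset G → Prop) [DecidablePred gd]
    (hd : ∀ A R, A ⊆ R → gd R → gd A) (F : Finset G → ℝ) :
    En ρ F ≤ 1 / 2 * EE ρ (fun A B => ∑ g ∈ B,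
      (if gd (insert g A) then F (insert g A) - F A else 0) ^ 2) +
      EE ρ fun A B => (if gd (A ∪ B) then 0 else 1) * F A ^ 2 := by
  rw [EE_un ρ fun A R => (if gd R then 0 else 1) * F A ^ 2, EE_eq, mul_sum, ← sum_add_distrib]
  refine sum_le_sum fun R _ => ?_
  rw [mul_left_comm, ← mul_add]
  refine mul_le_mul_of_nonneg_left ?_ (hρ R)
  by_cases h : gd R
  · simp only [h, if_true, zero_mul, sum_const_zero, add_zero]
    refine (vr_es F R).trans (le_of_eq (congrArg _ (sum_congr rfl fun A hA => ?_)))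
    refine sum_congr rfl fun g hg => ?_
    rw [if_pos (hd _ R (insert_subset (mem_sdiff.1 hg).1 (mem_powerset.1 hA)) h)]
  · simp only [h, if_false, one_mul]
    have h1 := vr_le F R 0
    simp only [sub_zero] at h1
    exact h1.trans (le_add_of_nonneg_left (by positivity))

/-- **response of one step**: a bound for linear statistics of `B` bounds the gradient of `tt F`. -/
lemma grad_tt (hρ : ∀ R, 0 ≤ ρ R) {K : ℝ} (hK : 0 < K) (F : Finset G → ℝ) (A : Finset G)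
    (gd : G → Prop) [DecidablePred gd] (c : G → ℝ)
    (hc : ∀ g, c g = if gd g then tt ρ F (insert g A) - tt ρ F A else 0) {m : ℝ}
    (h : cs ρ A (fun B => (∑ g ∈ B, c g - m) ^ 2) ≤ K * cs ρ A fun B => ∑ g ∈ B, c g ^ 2) :
    cs ρ A (fun B => ∑ g ∈ B, c g ^ 2) ≤ K * cs ρ A fun B => (bar F (A ∪ B) - tt ρ F A) ^ 2 := by
  set t := tt ρ F A with ht
  have e0 : ∀ A', cs ρ A' (fun B => bar F (A' ∪ B) - t) = nu ρ A' * (tt ρ F A' - t) := fun A' => by
    simp only [sub_eq_add_neg]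
    rw [cs_add, cs_const, ← nu_tt hρ]; ring
  have e1 : cs ρ A (fun B => ∑ g ∈ B, c g ^ 2) =
      cs ρ A fun B => (∑ g ∈ B, c g) * (bar F (A ∪ B) - t) := by
    have := cs_pt ρ A (fun g => c g ^ 2) fun _ => 1
    simp only [mul_one] at this
    rw [this, cs_pt ρ A c fun R => bar F R - t]
    refine sum_congr rfl fun g _ => ?_
    rw [e0, cs_const, hc g]
    split_ifs <;> ring
  have e2 : cs ρ A (fun B => (∑ g ∈ B, c g) * (bar F (A ∪ B) - t)) =
      cs ρ A fun B => (∑ g ∈ B, c g - m) * (bar F (A ∪ B) - t) := by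
    have : (fun B => (∑ g ∈ B, c g) * (bar F (A ∪ B) - t)) = fun B =>
        (∑ g ∈ B, c g - m) * (bar F (A ∪ B) - t) + m * (bar F (A ∪ B) - t) := by
      funext B; ring
    rw [this, cs_add, cs_mul, e0, ← ht, sub_self, mul_zero, mul_zero, add_zero]
  have e3 : cs ρ A (fun B => 2 * K * ((∑ g ∈ B, c g - m) * (bar F (A ∪ B) - t))) ≤
      cs ρ A fun B => (∑ g ∈ B, c g - m) ^ 2 + K ^ 2 * (bar F (A ∪ B) - t) ^ 2 :=
    cs_mono hρ fun B _ => by nlinarith [sq_nonneg (∑ g ∈ B, c g - m - K * (bar F (A ∪ B) - t))]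
  rw [cs_mul, cs_add, cs_mul, ← e2, ← e1] at e3
  refine le_of_mul_le_mul_left ?_ hK
  nlinarith

lemma EE_bar_tt (hρ : ∀ R, 0 ≤ ρ R) (F : Finset G → ℝ) :
    EE ρ (fun A B => (bar F (A ∪ B) - tt ρ F A) ^ 2) ≤ En ρ F := by
  have e1 : EE ρ (fun A B => bar F (A ∪ B) ^ 2) = ip (nu ρ) F (tt ρ F) := by
    rw [EE_un ρ fun _ R => bar F R ^ 2, ip_tt hρ]; simp only [sum_pw_const, sq]
  have e2 : EE ρ (fun A B => (bar F (A ∪ B) - tt ρ F A) ^ 2) =
      EE ρ (fun A B => bar F (A ∪ B) ^ 2) - nsq (nu ρ) (tt ρ F) := by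
    rw [EE, EE, nsq, ← sum_sub_distrib]
    refine sum_congr rfl fun A _ => ?_
    have : (fun B => (bar F (A ∪ B) - tt ρ F A) ^ 2) = fun B => bar F (A ∪ B) ^ 2 +
        (-2 * tt ρ F A * bar F (A ∪ B) + tt ρ F A ^ 2) := by funext B; ring
    rw [this, cs_add, cs_add, cs_mul, cs_const, ← nu_tt hρ]; ring
  have := nsq_nn (nu_nn hρ) fun A => F A - tt ρ F A
  rw [nsq_sub] at this
  rw [e2, e1, En_eq hρ]; linarith

end Crest.Agent.N337.Pe
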