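import Crest.Agent.N337.Pe.Basic

/-!
# Row 337, move (c): the dichotomy

`Gd 0 ⊆ Gd 1 ⊆ … ⊆ Gd 27` is a ladder of down-closed good sets.  Under `Hyp` a gap `1/20` on the
mean-zero functions supported on `Gd 0` improves to `1/10`.
-/

set_option autoImplicit false
set_option linter.unusedSectionVars false

namespace Crest.Agent.N337.Pe

open Finset Crest.Agent.N337.Op

variable {G : Type} [Fintype G] [DecidableEq G]

open Classical in
/-- indicator of the complement of the rung `i`. -/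
noncomputable def bad (Gd : ℕ → Finset G → Prop) (i : ℕ) (A : Finset G) : ℝ :=
  if Gd i A then 0 else 1

/-- an increasing family of down-closed sets. -/
structure Lad (Gd : ℕ → Finset G → Prop) : Prop where
  down : ∀ i A R, A ⊆ R → Gd i R → Gd i A
  mono : ∀ i A, Gd i A → Gd (i + 1) A

/-- the three inputs: the union climbs one rung, the second colour is on the bottom rung, linear
statistics of the second colour are almost Poisson. -/
structure Hyp (ρ : Finset G → ℝ) (Gd : ℕ → Finset G → Prop) : Prop where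
  nn : ∀ R, 0 ≤ ρ R
  h1 : ∀ i ≤ 26, ∀ A, Gd i A → cs ρ A (fun B => bad Gd (i + 1) (A ∪ B)) ≤ 1 / 10 ^ 9 * nu ρ A
  h2 : ∀ A, Gd 26 A → cs ρ A (bad Gd 0) ≤ 1 / 10 ^ 9 * nu ρ A
  tk : ∀ A (a : G → ℝ), Gd 27 A → (∀ g, a g ≠ 0 → g ∉ A ∧ Gd 27 (insert g A)) → ∃ m,
    cs ρ A (fun B => (∑ g ∈ B, a g - m) ^ 2) ≤ 6 / 5 * cs ρ A fun B => ∑ g ∈ B, a g ^ 2

/-- gap `t` on the mean-zero functions supported on the bottom rung. -/
def Phi (ρ : Finset G → ℝ) (Gd : ℕ → Finset G → Prop) (t : ℝ) : Prop :=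
  ∀ f : Finset G → ℝ, (∀ A, ¬ Gd 0 A → f A = 0) → ex (nu ρ) f = 0 → t * nsq (nu ρ) f ≤ En ρ f

variable {ρ : Finset G → ℝ} {Gd : ℕ → Finset G → Prop}

lemma bad_nn (i : ℕ) (A : Finset G) : 0 ≤ bad Gd i A := by unfold bad; split_ifs <;> norm_num

lemma bad_le (i : ℕ) (A : Finset G) : bad Gd i A ≤ 1 := by unfold bad; split_ifs <;> norm_num

lemma bad_of {i : ℕ} {A : Finset G} (h : Gd i A) : bad Gd i A = 0 := if_pos h

lemma bad_of_not {i : ℕ} {A : Finset G} (h : ¬ Gd i A) : bad Gd i A = 1 := if_neg h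

lemma Lad.le (hL : Lad Gd) {i j : ℕ} (h : i ≤ j) {A : Finset G} (hA : Gd i A) : Gd j A := by
  induction j, h using Nat.le_induction with
  | base => exact hA
  | succ j _ ih => exact hL.mono _ _ ih

lemma Lad.bad_mono (hL : Lad Gd) (i : ℕ) (A R : Finset G) (h : A ⊆ R) :
    bad Gd i A ≤ bad Gd i R := by
  by_cases hR : Gd i R
  · rw [bad_of hR, bad_of (hL.down i A R h hR)]
  · rw [bad_of_not hR]; exact bad_le _ _

/-- a rare event seen from a good first colour. -/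
lemma EE_rare (hρ : ∀ R, 0 ≤ ρ R) {i : ℕ} {ε : ℝ} (hε : 0 ≤ ε) {χ : Finset G → Finset G → ℝ}
    (h1 : ∀ A B, χ A B ≤ 1) (h : ∀ A, Gd i A → cs ρ A (χ A) ≤ ε * nu ρ A) {φ : Finset G → ℝ}
    (h0 : ∀ A, 0 ≤ φ A) : EE ρ (fun A B => χ A B * φ A) ≤
      ε * ex (nu ρ) φ + ex (nu ρ) fun A => bad Gd i A * φ A := by
  rw [← ex_mul, ← ex_add]
  refine sum_le_sum fun A _ => ?_
  simp only [mul_comm (χ A _)]
  rw [cs_mul]
  have n0 := nu_nn hρ A
  by_cases hA : Gd i A
  · rw [bad_of hA]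
    have := mul_le_mul_of_nonneg_left (h A hA) (h0 A)
    linarith
  · rw [bad_of_not hA]
    have := mul_le_mul_of_nonneg_left (cs_mono (A := A) hρ fun B _ => h1 A B) (h0 A)
    rw [cs_const] at this
    have := mul_nonneg n0 (mul_nonneg hε (h0 A))
    linarith

lemma iter_ctr (hρ : ∀ R, 0 ≤ ρ R) {ψ : ℝ → ℝ} (hψ : ConvexOn ℝ Set.univ ψ) (h0 : ∀ x, 0 ≤ ψ x)
    (f : Finset G → ℝ) (m : ℕ) :
    ex (nu ρ) (fun A => ψ ((tt ρ)^[m] f A)) ≤ ex (nu ρ) fun A => ψ (f A) := by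
  induction m with
  | zero => exact le_rfl
  | succ m ih => rw [Function.iterate_succ_apply']; exact (tt_ctr hρ hψ h0 _).trans ih

/-- after `m` steps the function is concentrated on the rung `m`. -/
lemma iter_bad (hL : Lad Gd) (hH : Hyp ρ Gd) {ψ : ℝ → ℝ} (hψ : ConvexOn ℝ Set.univ ψ)
    (h0 : ∀ x, 0 ≤ ψ x) (hz : ψ 0 = 0) {f : Finset G → ℝ} (hf : ∀ A, ¬ Gd 0 A → f A = 0) {m : ℕ}
    (hm : m ≤ 26) : ex (nu ρ) (fun A => bad Gd m A * ψ ((tt ρ)^[m] f A)) ≤
      m * (1 / 10 ^ 9) * ex (nu ρ) fun A => ψ (f A) := by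
  induction m with
  | zero =>
    simp only [Nat.cast_zero, zero_mul]
    refine (sum_eq_zero fun A _ => ?_).le
    by_cases hA : Gd 0 A
    · simp [bad_of hA]
    · simp [hf A hA, hz]
  | succ m ih =>
    rw [Function.iterate_succ_apply']
    refine (tt_step hH.nn hψ h0 (bad_nn _) (hL.bad_mono _) _).trans ?_
    refine (EE_rare hH.nn (by norm_num) (fun A B => bad_le _ _) (hH.h1 m (by omega))
      fun A => h0 _).trans ?_
    have := iter_ctr hH.nn hψ h0 f m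
    have := ih (by omega)
    push_cast
    linarith

/-- the energy decrement. -/
lemma En_tt (hL : Lad Gd) (hH : Hyp ρ Gd) {i : ℕ} (hi : i ≤ 26) (F : Finset G → ℝ) :
    En ρ (tt ρ F) ≤ 3 / 5 * En ρ F + (1 / 10 ^ 9 * nsq (nu ρ) (tt ρ F) +
      ex (nu ρ) fun A => bad Gd i A * tt ρ F A ^ 2) := by
  classical
  have h1 := En_le_good hH.nn (Gd (i + 1)) (hL.down _) (tt ρ F)
  have h2 := EE_rare hH.nn (by norm_num) (fun A B => bad_le _ _) (hH.h1 i hi)
    fun A => sq_nonneg (tt ρ F A)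
  have h3 : EE ρ (fun A B => ∑ g ∈ B,
      (if Gd (i + 1) (insert g A) then tt ρ F (insert g A) - tt ρ F A else 0) ^ 2) ≤
      EE ρ fun A B => 6 / 5 * (bar F (A ∪ B) - tt ρ F A) ^ 2 := sum_le_sum fun A _ => by
    rw [cs_mul]
    by_cases hA : Gd (i + 1) A
    · obtain ⟨m, hm⟩ := hH.tk A (fun g => if Gd (i + 1) (insert g A) then
        tt ρ F (insert g A) - tt ρ F A else 0) (hL.le (by omega) hA) fun g hg => by
          refine ⟨fun h => hg ?_, hL.le (i := i + 1) (by omega) ?_⟩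
          · simp [insert_eq_of_mem h]
          · by_contra h; exact hg (if_neg h)
      exact grad_tt hH.nn (by norm_num) F A _ _ (fun _ => rfl) hm
    · have : ∀ g, ¬ Gd (i + 1) (insert g A) := fun g h => hA (hL.down _ _ _ (subset_insert _ _) h)
      simp only [this, if_false, ne_eq, OfNat.ofNat_ne_zero, not_false_eq_true, zero_pow,
        sum_const_zero, cs_const, mul_zero]
      exact mul_nonneg (by norm_num) (cs_nn hH.nn fun _ => sq_nonneg _)
  rw [EE_mul] at h3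
  have h4 := EE_bar_tt hH.nn F
  have h5 : EE ρ (fun A B => (if Gd (i + 1) (A ∪ B) then 0 else 1) * tt ρ F A ^ 2) =
      EE ρ fun A B => bad Gd (i + 1) (A ∪ B) * tt ρ F A ^ 2 := rfl
  rw [nsq_eq_ex]
  linarith

lemma iter_En (hL : Lad Gd) (hH : Hyp ρ Gd) {f : Finset G → ℝ} (hf : ∀ A, ¬ Gd 0 A → f A = 0)
    {m : ℕ} (hm : m ≤ 26) :
    En ρ ((tt ρ)^[m] f) ≤ ((3 / 5) ^ m + 70 / 10 ^ 9) * nsq (nu ρ) f := by
  have N0 := nsq_nn (nu_nn hH.nn) f
  induction m with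
  | zero => have := En_le hH.nn f; simp only [Function.iterate_zero, id, pow_zero]; linarith
  | succ m ih =>
    have h1 := En_tt hL hH hm ((tt ρ)^[m] f)
    have h2 := iter_bad hL hH cvx_sq (fun _ => sq_nonneg _) (by norm_num) hf hm
    have h3 := iter_ctr hH.nn cvx_sq (fun _ => sq_nonneg _) f (m + 1)
    have h4 := ih (by omega)
    rw [Function.iterate_succ_apply'] at h2 h3 ⊢
    rw [← nsq_eq_ex] at h2 h3
    rw [← nsq_eq_ex] at h3
    have h5 : ((m + 1 : ℕ) : ℝ) ≤ 26 := by exact_mod_cast hm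
    have := mul_le_mul_of_nonneg_right h5 N0
    rw [pow_succ]
    nlinarith

lemma iter_low (hρ : ∀ R, 0 ≤ ρ R) {f : Finset G → ℝ} (h : En ρ f < 1 / 10 * nsq (nu ρ) f)
    (m : ℕ) : (81 / 100) ^ m * nsq (nu ρ) f ≤ nsq (nu ρ) ((tt ρ)^[m] f) ∧
      81 / 100 * nsq (nu ρ) ((tt ρ)^[m] f) ≤ nsq (nu ρ) ((tt ρ)^[m + 1] f) := by
  have N0 : 0 < nsq (nu ρ) f := by linarith [En_nn hρ f]
  induction m with
  | zero =>
    refine ⟨by simp, ?_⟩
    have h1 := Op.cs (nu_nn hρ) f (tt ρ f)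
    rw [En_eq hρ] at h
    refine le_of_mul_le_mul_left ?_ N0
    show _ * (_ * nsq (nu ρ) f) ≤ _ * nsq (nu ρ) (tt ρ f)
    nlinarith
  | succ m ih =>
    obtain ⟨h1, h2⟩ := ih
    have p0 : 0 < (81 / 100 : ℝ) ^ m * nsq (nu ρ) f := by positivity
    refine ⟨by rw [pow_succ]; linarith, ?_⟩
    simp only [Function.iterate_succ_apply'] at h2 ⊢
    set v := (tt ρ)^[m] f
    have h3 := Op.cs (nu_nn hρ) v (tt ρ (tt ρ v))
    rw [ip_tt_symm hρ, ip_self] at h3
    refine le_of_mul_le_mul_left ?_ (p0.trans_le h1)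
    nlinarith [mul_le_mul_of_nonneg_right h2 (nsq_nn (nu_nn hρ) (tt ρ v))]

/-- the closest mean-zero function supported on the bottom rung. -/
lemma exists_proj {ν : Finset G → ℝ} (hν : ∀ A, 0 ≤ ν A) (u : Finset G → ℝ) {K : ℝ} (hK : 0 ≤ K)
    (h : ex ν (fun A => (1 - bad Gd 0 A) * u A) ^ 2 ≤ ex ν (fun A => 1 - bad Gd 0 A) * K) :
    ∃ v : Finset G → ℝ, (∀ A, ¬ Gd 0 A → v A = 0) ∧ ex ν v = 0 ∧
      nsq ν (fun A => v A - u A) ≤ ex ν (fun A => bad Gd 0 A * u A ^ 2) + K := by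
  set γ := ex ν fun A => 1 - bad Gd 0 A with hγ
  set M := ex ν fun A => (1 - bad Gd 0 A) * u A with hM
  have γ0 : 0 ≤ γ := ex_nn hν fun A => sub_nonneg.2 (bad_le _ _)
  have hc : M / γ * γ = M ∧ (M / γ) ^ 2 * γ ≤ K := by
    rcases γ0.eq_or_lt with e | e
    · rw [← e, zero_mul] at h
      rw [← e, mul_zero, mul_zero]
      exact ⟨(pow_eq_zero_iff two_ne_zero |>.1 (h.antisymm (sq_nonneg _))).symm, hK⟩
    · refine ⟨div_mul_cancel₀ _ e.ne', ?_⟩
      rw [show (M / γ) ^ 2 * γ = M ^ 2 / γ by field_simp, div_le_iff₀' e]; exact h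
  refine ⟨fun A => (1 - bad Gd 0 A) * u A - M / γ * (1 - bad Gd 0 A), fun A hA => ?_, ?_, ?_⟩
  · simp [bad_of_not hA]
  · rw [ex_sub, ex_mul, hc.1, sub_self]
  · refine le_trans (le_of_eq ?_) (add_le_add le_rfl hc.2)
    generalize M / γ = c
    rw [hγ, ← ex_mul, ← ex_add, nsq_eq_ex]
    congr 1; funext A
    by_cases hA : Gd 0 A
    · simp only [bad_of hA]; ring
    · simp only [bad_of_not hA]; ring

lemma sq_ex_le {ν : Finset G → ℝ} (hν : ∀ A, 0 ≤ ν A) (i : ℕ) (v : Finset G → ℝ) :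
    ex ν (fun A => (1 - bad Gd i A) * v A) ^ 2 ≤ ex ν (fun A => 1 - bad Gd i A) * nsq ν v := by
  have := Op.cs hν (fun A => 1 - bad Gd i A) v
  rw [ip_eq_ex, nsq_eq_ex] at this
  refine this.trans (le_of_eq ?_)
  congr 2; funext A; unfold bad; split_ifs <;> ring

/-- **dichotomy.** -/
theorem dich (hL : Lad Gd) (hH : Hyp ρ Gd) (hΦ : Phi ρ Gd (1 / 20)) : Phi ρ Gd (1 / 10) := by
  intro f hf hf0
  by_contra hlt
  have hν := nu_nn hH.nn
  have hlow := (iter_low hH.nn (not_le.1 hlt) 26).1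
  have N0 : 0 < nsq (nu ρ) f := by linarith [En_nn hH.nn f, not_le.1 hlt]
  have hx := iter_En hL hH hf (le_refl 26)
  have hb := iter_bad hL hH cvx_sq (fun _ => sq_nonneg _) (by norm_num) hf (le_refl 26)
  have hl := iter_bad hL hH cvx_abs (fun _ => abs_nonneg _) (by norm_num) hf (le_refl 26)
  have hn := iter_ctr hH.nn cvx_sq (fun _ => sq_nonneg _) f 26
  have hu : ex (nu ρ) ((tt ρ)^[26] f) = 0 := by
    rw [← hf0]; generalize 26 = m
    induction m with
    | zero => rfl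
    | succ m ih => rw [Function.iterate_succ_apply', ex_tt hH.nn, ih]
  rw [← nsq_eq_ex] at hb hn
  rw [← nsq_eq_ex] at hn
  set u := (tt ρ)^[26] f
  set N := nsq (nu ρ) f
  have x0 := En_nn hH.nn u
  -- the mass of `u` off the bottom rung
  have hs : ex (nu ρ) (fun A => bad Gd 0 A * u A ^ 2) ≤ 54 / 10 ^ 9 * N + 8 * En ρ u := by
    have h1 := EE_rare hH.nn (by norm_num) (χ := fun _ B => bad Gd 0 B) (fun A B => bad_le _ _)
      hH.h2 fun A => sq_nonneg (u A)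
    have h2 := EE_sub_le hH.nn u
    have h3 : EE ρ (fun A B => bad Gd 0 B * u B ^ 2) ≤
        EE ρ fun A B => 2 * (bad Gd 0 B * u A ^ 2) + 2 * (u A - u B) ^ 2 :=
      EE_mono hH.nn fun A B _ => by
        unfold bad; split_ifs <;> nlinarith [sq_nonneg (u A - u B), sq_nonneg (2 * u A - u B)]
    rw [EE_add, EE_mul, EE_mul, EE_swap, EE_fst _ fun A => bad Gd 0 A * u A ^ 2] at h3
    rw [← nsq_eq_ex] at h1
    push_cast at hb
    linarith
  set s := ex (nu ρ) fun A => bad Gd 0 A * u A ^ 2 with hsd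
  have s0 : 0 ≤ s := ex_nn hν fun A => mul_nonneg (bad_nn _ _) (sq_nonneg _)
  set γ := ex (nu ρ) fun A => 1 - bad Gd 0 A with hγd
  have γ0 : 0 ≤ γ := ex_nn hν fun A => sub_nonneg.2 (bad_le _ _)
  have hγ : ex (nu ρ) (fun A => 1 - bad Gd 26 A) ≤ 101 / 100 * γ := by
    have h1 := EE_rare hH.nn (by norm_num) (χ := fun _ B => bad Gd 0 B) (fun A B => bad_le _ _)
      hH.h2 (φ := fun A => 1 - bad Gd 26 A) fun A => sub_nonneg.2 (bad_le _ _)
    have h2 : ex (nu ρ) (fun A => bad Gd 26 A * (1 - bad Gd 26 A)) = 0 :=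
      sum_eq_zero fun A _ => by beta_reduce; unfold bad; split_ifs <;> simp
    have h3 : EE ρ (fun A _ => 1 - bad Gd 26 A) ≤
        EE ρ fun A B => bad Gd 0 B * (1 - bad Gd 26 A) + (1 - bad Gd 0 B) :=
      EE_mono hH.nn fun A B _ => by unfold bad; split_ifs <;> norm_num
    rw [EE_add, EE_swap ρ fun _ B => 1 - bad Gd 0 B, EE_fst, EE_fst] at h3
    linarith
  have hM : ex (nu ρ) (fun A => (1 - bad Gd 0 A) * u A) ^ 2 ≤ γ * (1 / 10 ^ 9 * N + 21 / 10 * s) := by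
    have h1 := sq_ex_le (Gd := Gd) hν 26 fun A => bad Gd 0 A * u A
    have e1 : nsq (nu ρ) (fun A => bad Gd 0 A * u A) = s := by
      rw [nsq_eq_ex]; congr 1; funext A; unfold bad; split_ifs <;> ring
    have h2 := sq_ex_le (Gd := Gd) hν 0 fun A => |f A|
    have e2 : (fun A => (1 - bad Gd 0 A) * |f A|) = fun A => |f A| := by
      funext A
      by_cases hA : Gd 0 A
      · simp [bad_of hA]
      · simp [hf A hA]
    have e3 : nsq (nu ρ) (fun A => |f A|) = N := by simp only [nsq, sq_abs, N]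
    have e4 : ex (nu ρ) (fun A => (1 - bad Gd 0 A) * u A) = -(ex (nu ρ) (fun A => bad Gd 26 A * u A) +
        ex (nu ρ) fun A => (1 - bad Gd 26 A) * (bad Gd 0 A * u A)) := by
      rw [eq_neg_iff_add_eq_zero, ← ex_add, ← ex_add, ← hu]
      congr 1; funext A
      by_cases hA : Gd 0 A
      · simp [bad_of hA, bad_of (hL.le (Nat.zero_le 26) hA)]
      · rw [bad_of_not hA]; ring
    have h3 : |ex (nu ρ) fun A => bad Gd 26 A * u A| ≤ ex (nu ρ) fun A => bad Gd 26 A * |u A| :=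
      (abs_sum_le_sum_abs _ _).trans (le_of_eq (sum_congr rfl fun A _ => by
        rw [abs_mul, abs_mul, abs_of_nonneg (hν A), abs_of_nonneg (bad_nn _ _)]))
    have h4 := pow_le_pow_left₀ (abs_nonneg _) (h3.trans hl) 2
    rw [e1] at h1
    rw [e2, e3] at h2
    rw [sq_abs, mul_pow] at h4
    rw [e4, neg_sq]
    have h5 := mul_le_mul_of_nonneg_right hγ s0
    have h6 := mul_nonneg γ0 N0.le
    have h7 := mul_nonneg γ0 s0
    push_cast at h4
    nlinarith [sq_nonneg (ex (nu ρ) (fun A => bad Gd 26 A * u A) -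
      ex (nu ρ) fun A => (1 - bad Gd 26 A) * (bad Gd 0 A * u A))]
  obtain ⟨v, hv, hv0, hw⟩ := exists_proj hν u (by positivity) hM
  have h1 := hΦ v hv hv0
  have h2 := En_le_add hH.nn one_pos v u
  have h3 := nsq_add_le hν v fun A => u A - v A
  rw [nsq_sub_comm] at h3
  simp only [add_sub_cancel] at h3
  replace h3 : nsq (nu ρ) u ≤ _ := h3
  rw [← hsd] at hw
  norm_num at hlow hx
  linarith

end Crest.Agent.N337.Pe
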