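import Crest.Agent.N337.Pe.Dich

/-!
# Row 337, move (c): the gap by thinning

The hypotheses are stable under thinning; a strongly thinned system has a gap; a weak thinning
loses little and the dichotomy repairs the loss.
-/

set_option autoImplicit false
set_option linter.unusedSectionVars false

namespace Crest.Agent.N337.Pe

open Finset Crest.Agent.N337.Op

variable {G : Type} [Fintype G] [DecidableEq G] {Ξ : Type} [Fintype Ξ]

/-- sum over the environments in which `A` is available. -/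
def sm (W : Ξ → ℝ) (O : Ξ → Finset G) (A : Finset G) (φ : Ξ → ℝ) : ℝ :=
  ∑ ξ, if A ⊆ O ξ then W ξ * φ ξ else 0

/-- mixture of independent thinnings: each available `g` has a colour with weight `D g` each. -/
def mix (W : Ξ → ℝ) (O : Ξ → Finset G) (D : G → ℝ) (R : Finset G) : ℝ :=
  sm W O R fun ξ => wt D (O ξ) R

variable {W : Ξ → ℝ} {O : Ξ → Finset G} {D : G → ℝ} {ρ : Finset G → ℝ}
  {Gd : ℕ → Finset G → Prop} {t : ℝ}

lemma mix_nn (hW : ∀ ξ, 0 ≤ W ξ) (hD : ∀ g, 0 ≤ D g ∧ D g ≤ 1) (R : Finset G) : 0 ≤ mix W O D R :=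
  sum_nonneg fun ξ _ => by
    split_ifs; exacts [mul_nonneg (hW ξ) (wt_nn (fun g _ => hD g) _), le_rfl]

lemma sum_mix (W : Ξ → ℝ) (O : Ξ → Finset G) (D : G → ℝ) (φ : Finset G → ℝ) :
    ∑ R, mix W O D R * φ R = ∑ ξ, W ξ * av D (O ξ) φ := by
  simp only [mix, sm, sum_mul, av, mul_sum]
  rw [sum_comm]
  refine sum_congr rfl fun ξ _ => ?_
  simp only [ite_mul, zero_mul, ← sum_filter, mul_assoc]
  exact sum_congr (by ext; simp) fun _ _ => rfl

theorem cs_mix (W : Ξ → ℝ) (O : Ξ → Finset G) (D : G → ℝ) (A : Finset G) (ψ : Finset G → ℝ) :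
    cs (mix W O D) A ψ = (∏ g ∈ A, D g) * sm W O A fun ξ => av D (O ξ \ A) ψ := by
  have := sum_mix W O D fun R => if A ⊆ R then ψ (R \ A) else 0
  simp only [mul_ite, mul_zero] at this
  rw [cs, this, sm, mul_sum]
  refine sum_congr rfl fun ξ _ => ?_
  split_ifs with h
  · rw [av_sup D h]; ring
  · rw [av_congr (ψ' := fun _ => 0) fun R hR => if_neg fun h' => h (h'.trans hR), av_const]; ring

/-- thinning. -/
def th (t : ℝ) (ρ : Finset G → ℝ) : Finset G → ℝ := mix ρ id fun _ => t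

lemma cs_th (t : ℝ) (ρ : Finset G → ℝ) (A : Finset G) (ψ : Finset G → ℝ) :
    cs (th t ρ) A ψ = t ^ A.card * cs ρ A fun B => av (fun _ => t) B ψ := by
  rw [th, cs_mix, prod_const]; rfl

lemma nu_th (t : ℝ) (ρ : Finset G → ℝ) (A : Finset G) : nu (th t ρ) A = t ^ A.card * nu ρ A := by
  simp only [nu, cs_th, av_const]

lemma Hyp.th (hL : Lad Gd) (hH : Hyp ρ Gd) (h0 : 0 ≤ t) (h1 : t ≤ 1) : Hyp (th t ρ) Gd := by
  have key : ∀ (A : Finset G) (χ : Finset G → ℝ), (∀ B B', B' ⊆ B → χ B' ≤ χ B) →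
      cs ρ A χ ≤ 1 / 10 ^ 9 * nu ρ A → cs (Pe.th t ρ) A χ ≤ 1 / 10 ^ 9 * nu (Pe.th t ρ) A := by
    intro A χ hχ h
    rw [cs_th, nu_th, mul_left_comm]
    refine mul_le_mul_of_nonneg_left ((cs_mono hH.nn fun B _ => ?_).trans h) (pow_nonneg h0 _)
    exact (av_mono (fun _ _ => ⟨h0, h1⟩) (hχ B)).trans_eq (av_const _ _ _)
  refine ⟨mix_nn hH.nn fun _ => ⟨h0, h1⟩, fun i hi A hA => ?_, fun A hA => ?_, fun A a hA ha => ?_⟩
  · exact key A _ (fun B B' h => hL.bad_mono _ _ _ (union_subset_union_right h)) (hH.h1 i hi A hA)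
  · exact key A _ (fun B B' h => hL.bad_mono _ _ _ h) (hH.h2 A hA)
  · obtain ⟨m, hm⟩ := hH.tk A a hA ha
    refine ⟨t * m, ?_⟩
    rw [cs_th, cs_th, mul_left_comm]
    refine mul_le_mul_of_nonneg_left ?_ (pow_nonneg h0 _)
    have e1 : (fun B : Finset G => av (fun _ => t) B fun B' => (∑ g ∈ B', a g - t * m) ^ 2) =
        fun B => t * (1 - t) * ∑ g ∈ B, a g ^ 2 + t ^ 2 * (∑ g ∈ B, a g - m) ^ 2 := by
      funext B; rw [av_sq, ← sum_mul, ← sum_mul]; ring
    have e2 : (fun B : Finset G => av (fun _ => t) B fun B' => ∑ g ∈ B', a g ^ 2) =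
        fun B => t * ∑ g ∈ B, a g ^ 2 := by
      funext B; rw [av_sum, ← sum_mul, mul_comm]
    rw [e1, e2, cs_add, cs_mul, cs_mul, cs_mul]
    have x0 : 0 ≤ cs ρ A fun B => ∑ g ∈ B, a g ^ 2 :=
      cs_nn hH.nn fun _ => sum_nonneg fun _ _ => sq_nonneg _
    have := mul_le_mul_of_nonneg_left hm (sq_nonneg t)
    nlinarith [mul_nonneg (mul_nonneg h0 (sub_nonneg.2 h1)) x0]

lemma En_th (hρ : ∀ R, 0 ≤ ρ R) (h0 : 0 ≤ t) (h1 : t ≤ 1) (f : Finset G → ℝ) :
    En (th t ρ) f ≤ En ρ f + (1 - t ^ Fintype.card G) * nsq (nu ρ) f := by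
  rw [En, th, sum_mix, En, nsq_nu, mul_sum, ← sum_add_distrib]
  refine sum_le_sum fun R _ => ?_
  rw [mul_left_comm, ← mul_add]
  refine mul_le_mul_of_nonneg_left ?_ (hρ R)
  set S := ∑ A ∈ R.powerset, f A ^ 2 with hS
  have S0 : 0 ≤ S := sum_nonneg fun _ _ => sq_nonneg _
  have e := av_sup (fun _ => t) (Subset.refl R) fun _ => S
  rw [av_const, prod_const] at e
  have h2 : av (fun _ => t) R (fun R' => vr f R' + if R ⊆ R' then S else 0) ≤ vr f R + S := by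
    refine (av_mono (fun _ _ => ⟨h0, h1⟩) fun R' hR => ?_).trans_eq (av_const _ _ _)
    split_ifs with h
    · rw [hR.antisymm h]
    · have h3 := vr_le f R' 0
      have h4 : ∑ A ∈ R'.powerset, f A ^ 2 ≤ S :=
        sum_le_sum_of_subset_of_nonneg (powerset_mono.2 hR) fun _ _ _ => sq_nonneg _
      simp only [sub_zero] at h3
      linarith [vr_nn f R]
  have h3 : av (fun _ => t) R (fun R' => vr f R' + if R ⊆ R' then S else 0) =
      av (fun _ => t) R (vr f) + av (fun _ => t) R fun R' => if R ⊆ R' then S else 0 := by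
    simp only [av, mul_add, sum_add_distrib]
  have h4 := mul_le_mul_of_nonneg_right (pow_le_pow_of_le_one h0 h1 (card_le_univ R)) S0
  simp only [id]
  linarith

lemma nsq_le_add {Ω : Type} [Fintype Ω] {ν : Ω → ℝ} (hν : ∀ A, 0 ≤ ν A) (f v : Ω → ℝ) :
    nsq ν f ≤ 11 / 10 * nsq ν v + 11 * nsq ν fun A => v A - f A := by
  simp only [nsq, mul_sum, ← sum_add_distrib]
  refine sum_le_sum fun A _ => ?_
  nlinarith [mul_nonneg (hν A) (sq_nonneg (v A / 10 + (v A - f A)))]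

/-- a weak thinning loses little. -/
lemma Phi.of_th (hρ : ∀ R, 0 ≤ ρ R) (h0 : 0 ≤ t) (h1 : t ≤ 1)
    (ht : 999 / 1000 ≤ t ^ Fintype.card G) (h : Phi (th t ρ) Gd (1 / 10)) : Phi ρ Gd (1 / 20) := by
  intro f hf hf0
  have hρ' : ∀ R, 0 ≤ th t ρ R := mix_nn hρ fun _ => ⟨h0, h1⟩
  have hν := nu_nn hρ
  have hp : ∀ A : Finset G, 999 / 1000 ≤ t ^ A.card ∧ t ^ A.card ≤ 1 := fun A =>
    ⟨ht.trans (pow_le_pow_of_le_one h0 h1 (card_le_univ A)), pow_le_one₀ h0 h1⟩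
  have hc : ∀ φ : Finset G → ℝ, (∀ A, 0 ≤ φ A) → 999 / 1000 * ex (nu ρ) φ ≤ ex (nu (th t ρ)) φ :=
    fun φ hφ => by
      simp only [ex, mul_sum, nu_th]
      exact sum_le_sum fun A _ => by
        nlinarith [mul_le_mul_of_nonneg_right (hp A).1 (mul_nonneg (hν A) (hφ A))]
  have N0 := nsq_nn hν f
  have hb : ∀ A, bad Gd 0 A * f A = 0 := fun A => by
    by_cases hA : Gd 0 A
    · rw [bad_of hA, zero_mul]
    · rw [hf A hA, mul_zero]
  have hM : ex (nu (th t ρ)) (fun A => (1 - bad Gd 0 A) * f A) ^ 2 ≤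
      ex (nu (th t ρ)) (fun A => 1 - bad Gd 0 A) * (1 / 10 ^ 5 * nsq (nu ρ) f) := by
    have h2 := sq_ex_le (Gd := Gd) hν 0 fun A => (t ^ A.card - 1) * f A
    have e : ex (nu ρ) (fun A => (1 - bad Gd 0 A) * ((t ^ A.card - 1) * f A)) =
        ex (nu (th t ρ)) fun A => (1 - bad Gd 0 A) * f A := by
      rw [← add_zero (ex (nu ρ) _), ← hf0, ← ex_add]
      refine sum_congr rfl fun A _ => ?_
      rw [nu_th]; linear_combination nu ρ A * hb A
    have h3 : nsq (nu ρ) (fun A => (t ^ A.card - 1) * f A) ≤ 1 / 10 ^ 6 * nsq (nu ρ) f := by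
      rw [nsq_eq_ex, nsq_eq_ex, ← ex_mul]
      refine ex_mono hν fun A => ?_
      rw [mul_pow]
      exact mul_le_mul_of_nonneg_right (by nlinarith [hp A]) (sq_nonneg _)
    have h4 := hc (fun A => 1 - bad Gd 0 A) fun A => sub_nonneg.2 (bad_le _ _)
    have h5 : 0 ≤ ex (nu ρ) fun A => 1 - bad Gd 0 A := ex_nn hν fun A => sub_nonneg.2 (bad_le _ _)
    rw [e] at h2
    nlinarith [mul_le_mul_of_nonneg_left h3 h5, mul_le_mul_of_nonneg_right h4 N0, mul_nonneg h5 N0]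
  obtain ⟨v, hv, hv0, hw⟩ := exists_proj (nu_nn hρ') f (by positivity) hM
  have e : ex (nu (th t ρ)) (fun A => bad Gd 0 A * f A ^ 2) = 0 :=
    sum_eq_zero fun A _ => by beta_reduce; rw [sq, ← mul_assoc (bad _ _ _), hb]; ring
  have h2 := h v hv hv0
  have h3 := En_le_add hρ' (x := 1 / 2) (by norm_num) v f
  have h4 := nsq_le_add (nu_nn hρ') f v
  have h5 := En_th hρ h0 h1 f
  have h6 := hc (fun A => f A ^ 2) fun _ => sq_nonneg _
  rw [← nsq_eq_ex, ← nsq_eq_ex] at h6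
  have h7 := mul_le_mul_of_nonneg_right ht N0
  rw [e] at hw
  norm_num at h3
  linarith

/-- a dilute system has a gap. -/
lemma Phi.of_dilute (hρ : ∀ R, 0 ≤ ρ R)
    (h : ∀ A, cs ρ A (fun B => ∑ _g ∈ B, (1 : ℝ)) ≤ 1 / 2 * nu ρ A) : Phi ρ Gd (1 / 10) := by
  intro f _ hf0
  have hν := nu_nn hρ
  have h1 : nsq (nu ρ) f ≤ nsq (nu ρ) fun A => f A - f ∅ := by
    rw [nsq_sub, ip_const, hf0]
    linarith [nsq_nn hν fun _ => f ∅]
  have h2 : nsq (nu ρ) (fun A => f A - f ∅) ≤ 2 * EE ρ fun A B => (f A - f B) ^ 2 := by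
    rw [nsq, EE, mul_sum]
    refine sum_le_sum fun A _ => ?_
    have h3 : cs ρ A (fun _ => (f A - f ∅) ^ 2) ≤
        cs ρ A fun B => (f A - f B) ^ 2 + (f A - f ∅) ^ 2 * ∑ _g ∈ B, (1 : ℝ) :=
      cs_mono hρ fun B _ => by
        rcases B.eq_empty_or_nonempty with rfl | hB
        · simp
        · have : (1 : ℝ) ≤ ∑ _g ∈ B, (1 : ℝ) := by simpa using hB.card_pos
          nlinarith [sq_nonneg (f A - f B), sq_nonneg (f A - f ∅)]
    rw [cs_const, cs_add, cs_mul] at h3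
    nlinarith [mul_le_mul_of_nonneg_left (h A) (sq_nonneg (f A - f ∅))]
  linarith [EE_sub_le hρ f, En_nn hρ f]

/-- **the gap.** -/
theorem gap (hL : Lad Gd) (hH : Hyp ρ Gd) : Phi ρ Gd (1 / 10) := by
  set n : ℝ := (Fintype.card G : ℝ) with hn
  have n0 : 0 ≤ n := Nat.cast_nonneg _
  set t : ℝ := 1 - 1 / (1000 * (n + 1)) with ht
  have d0 : 0 < 1 / (1000 * (n + 1)) := by positivity
  have d1 : n * (1 / (1000 * (n + 1))) ≤ 1 / 1000 := by
    rw [mul_one_div, div_le_div_iff₀ (by positivity) (by norm_num)]; linarith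
  have d2 : 1 / (1000 * (n + 1)) ≤ 1 := by rw [div_le_one (by positivity)]; linarith
  have h0 : 0 ≤ t := by linarith
  have h1 : t < 1 := by linarith
  have h2 : 999 / 1000 ≤ t ^ Fintype.card G := by
    have := one_add_mul_le_pow (a := -(1 / (1000 * (n + 1)))) (by linarith) (Fintype.card G)
    rw [← hn, ← sub_eq_add_neg, ← ht] at this
    linarith
  have key : ∀ k : ℕ, ∀ ρ : Finset G → ℝ, Hyp ρ Gd →
      (∀ A, t ^ k * cs ρ A (fun B => ∑ _g ∈ B, (1 : ℝ)) ≤ 1 / 2 * nu ρ A) → Phi ρ Gd (1 / 10) := by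
    intro k
    induction k with
    | zero => exact fun ρ hH h => Phi.of_dilute hH.nn (by simpa using h)
    | succ k ih =>
      refine fun ρ hH h => dich hL hH (Phi.of_th hH.nn h0 h1.le h2 (ih _ (hH.th hL h0 h1.le) ?_))
      intro A
      have e : (fun B : Finset G => av (fun _ => t) B fun B' => ∑ _g ∈ B', (1 : ℝ)) =
          fun B => t * ∑ _g ∈ B, (1 : ℝ) := by
        funext B; rw [av_sum, ← sum_mul, mul_comm]
      rw [cs_th, nu_th, e, cs_mul]
      have := mul_le_mul_of_nonneg_left (h A) (pow_nonneg h0 A.card)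
      rw [pow_succ] at this
      linarith
  obtain ⟨k, hk⟩ := exists_pow_lt_of_lt_one (x := 1 / (2 * (n + 1))) (by positivity) h1
  refine key k ρ hH fun A => ?_
  have h3 : cs ρ A (fun B => ∑ _g ∈ B, (1 : ℝ)) ≤ cs ρ A fun _ => n :=
    cs_mono hH.nn fun B _ => by simpa [hn] using card_le_univ B
  rw [cs_const] at h3
  have h4 : t ^ k * n ≤ 1 / 2 := by
    rw [lt_div_iff₀ (by positivity)] at hk
    nlinarith [pow_nonneg h0 k]
  nlinarith [mul_le_mul_of_nonneg_left h3 (pow_nonneg h0 k),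
    mul_le_mul_of_nonneg_left h4 (nu_nn hH.nn A)]

end Crest.Agent.N337.Pe
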